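import Vale.Agent.P307.H67.Aec

universe u

namespace Vale.Agent.P307.H67

open FirstOrder Cardinal Language

/-! ### Gaifman graphs and isomorphisms -/

lemma gaifman_relLang {L : Language.{u, u}} (M : Type u) [L.Structure M] :
    Gr.gaifman (relLang L) M = gaifmanF L M := by
  ext x y
  constructor
  · rintro ⟨hne, n, R, v, hR, hx, hy⟩
    refine ⟨hne, ?_⟩
    revert v
    refine rel_cases (C := fun n R => ∀ v : Fin n → M, Structure.RelMap R v →
      x ∈ Set.range v → y ∈ Set.range v →
      ((∃ (n : ℕ) (R : L.Relations n) (v : Fin n → M),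
        Structure.RelMap R v ∧ x ∈ Set.range v ∧ y ∈ Set.range v) ∨
      ∃ (n : ℕ) (f : L.Functions n) (v : Fin n → M),
        (x = Structure.funMap f v ∨ x ∈ Set.range v) ∧
        (y = Structure.funMap f v ∨ y ∈ Set.range v))) ?_ ?_ n R
    · intro n R v hR hx hy
      exact Or.inl ⟨n, R, v, hR, hx, hy⟩
    · intro n f v hR hx hy
      rw [relMap_fS] at hR
      have key : ∀ z ∈ Set.range v,
          z = Structure.funMap f (fun i => v i.succ) ∨ z ∈ Set.range (fun i : Fin n => v i.succ) := by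
        rintro z ⟨i, rfl⟩
        refine Fin.cases ?_ (fun j => ?_) i
        · left
          exact hR.symm
        · right
          exact ⟨j, rfl⟩
      exact Or.inr ⟨n, f, fun i => v i.succ, key x hx, key y hy⟩
  · rintro ⟨hne, h | h⟩
    · obtain ⟨n, R, v, hR, hx, hy⟩ := h
      exact ⟨hne, n, rS R, v, hR, hx, hy⟩
    · obtain ⟨n, f, v, hx, hy⟩ := h
      have key : ∀ z, (z = Structure.funMap f v ∨ z ∈ Set.range v) →
          z ∈ Set.range (Fin.cons (Structure.funMap f v) v : Fin (n + 1) → M) := by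
        rintro z (rfl | ⟨i, rfl⟩)
        · exact ⟨0, rfl⟩
        · exact ⟨i.succ, rfl⟩
      refine ⟨hne, n + 1, fS f, Fin.cons (Structure.funMap f v) v, ?_, key x hx, key y hy⟩
      rw [relMap_fS]
      rfl

lemma subdivision_iso {V V' : Type u} {G : SimpleGraph V} {G' : SimpleGraph V'} (e : G ≃g G')
    {κ : Cardinal.{u}} (h : Gr.HasCompleteSubdivision G κ) : Gr.HasCompleteSubdivision G' κ := by
  obtain ⟨B, p, hB, hp, hq⟩ := h
  let c : {y : V' | e.symm y ∈ B} → B := fun a => ⟨e.symm a.1, a.2⟩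
  have hinj : Function.Injective c := by
    intro a b hab
    have h1 : e.symm a.1 = e.symm b.1 := congrArg Subtype.val hab
    exact Subtype.ext (e.symm.injective h1)
  have hsurj : Function.Surjective c := by
    intro b
    refine ⟨⟨e b.1, ?_⟩, ?_⟩
    · change e.symm (e b.1) ∈ B
      rw [e.symm_apply_apply]
      exact b.2
    · exact Subtype.ext (e.symm_apply_apply _)
  have hsup : ∀ (a b : {y : V' | e.symm y ∈ B}) (x : V'),
      x ∈ (((p (c a) (c b)).map e.toHom).copy (e.apply_symm_apply a.1)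
        (e.apply_symm_apply b.1)).support ↔ e.symm x ∈ (p (c a) (c b)).support := by
    intro a b x
    rw [SimpleGraph.Walk.support_copy, SimpleGraph.Walk.support_map, List.mem_map]
    constructor
    · rintro ⟨y, hy, rfl⟩
      have : e.symm (e.toHom y) = y := e.symm_apply_apply y
      rw [this]
      exact hy
    · intro hx
      exact ⟨_, hx, e.apply_symm_apply x⟩
  refine ⟨{y : V' | e.symm y ∈ B}, fun a b => ((p (c a) (c b)).map e.toHom).copy
    (e.apply_symm_apply a.1) (e.apply_symm_apply b.1), ?_, ?_, ?_⟩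
  · rw [← hB]
    exact Cardinal.mk_congr (Equiv.ofBijective c ⟨hinj, hsurj⟩)
  · intro a b hab
    obtain ⟨h1, h2⟩ := hp (c a) (c b) (fun h => hab (hinj h))
    refine ⟨?_, ?_⟩
    · rw [SimpleGraph.Walk.isPath_copy]
      exact SimpleGraph.Walk.IsPath.map e.injective h1
    · intro x hx hxB
      rw [hsup] at hx
      rcases h2 _ hx hxB with h3 | h3
      · left
        exact e.symm.injective h3
      · right
        exact e.symm.injective h3
  · intro a b a' b' hab hab' hne x hx hx'
    rw [hsup] at hx hx'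
    refine hq (c a) (c b) (c a') (c b') (fun h => hab (hinj h)) (fun h => hab' (hinj h)) ?_ _ hx hx'
    intro h
    apply hne
    rw [Sym2.eq_iff] at h ⊢
    rcases h with ⟨h1, h2⟩ | ⟨h1, h2⟩
    · exact Or.inl ⟨hinj h1, hinj h2⟩
    · exact Or.inr ⟨hinj h1, hinj h2⟩

/-- isomorphic structures have isomorphic Gaifman graphs -/
def gaifmanIso {L' : Language.{u, u}} {M N : Type u} [L'.Structure M] [L'.Structure N]
    (e : M ≃[L'] N) : Gr.gaifman L' M ≃g Gr.gaifman L' N where
  toEquiv := e.toEquiv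
  map_rel_iff' := by
    intro a b
    constructor
    · rintro ⟨hne, n, R, v, hR, ⟨i, hi⟩, ⟨j, hj⟩⟩
      refine ⟨fun h => hne (congrArg _ h), n, R, e.symm ∘ v, ?_, ⟨i, ?_⟩, ⟨j, ?_⟩⟩
      · exact (e.symm.map_rel R v).2 hR
      · change e.symm (v i) = a
        rw [hi]
        exact e.symm_apply_apply a
      · change e.symm (v j) = b
        rw [hj]
        exact e.symm_apply_apply b
    · rintro ⟨hne, n, R, v, hR, ⟨i, hi⟩, ⟨j, hj⟩⟩
      refine ⟨fun h => hne (e.injective h), n, R, e ∘ v, ?_, ⟨i, ?_⟩, ⟨j, ?_⟩⟩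
      · exact (e.map_rel R v).2 hR
      · change e (v i) = e a
        rw [hi]
      · change e (v j) = e b
        rw [hj]

/-! ### the transfer in arbitrary vocabularies -/

theorem all_vocabularies : ∀ l : Cardinal.{u}, ℵ₀ ≤ l → ∃ μ : Cardinal.{u}, l ≤ μ ∧
    ∀ (L : Language.{u, u}) (K : AEC L), K.LS ≤ l →
      ∀ κ : Cardinal.{u}, μ ≤ κ → K.CategoricalIn κ →
        (∀ (M : Type u) [L.Structure M], K.mem M → #M = κ →
          ¬ Gr.HasCompleteSubdivision (gaifmanF L M) κ) →
        ∀ κ' : Cardinal.{u}, μ ≤ κ' → K.CategoricalIn κ' := by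
  intro l _
  refine ⟨Gr.muG (max l (hanf (2 ^ l))), ?_, ?_⟩
  · have h1 : Order.succ (max l (hanf (2 ^ l))) ≤ Gr.thetaG (max l (hanf (2 ^ l))) :=
      (le_max_right _ _).trans (le_max_right _ _)
    exact (le_max_left l _).trans ((Order.le_succ _).trans (h1.trans
      ((cantor _).le.trans (Order.le_succ _))))
  · intro L K hK κ hκ hcat hno κ' hκ'
    rw [← categorical_iff] at hcat ⊢
    refine Gr.categorical_transfer' (K := relAEC K) (relAEC_isLS (AEC.isLS_of_LS_le hK)) ?_ hκ hcat hκ'
    intro N _ hN hc hsub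
    obtain ⟨N₀, _, hN₀, ⟨e⟩⟩ := hN
    refine hno N₀ hN₀ ((Cardinal.mk_congr e.toEquiv).trans hc) ?_
    rw [← gaifman_relLang]
    exact subdivision_iso (gaifmanIso e).symm hsub

/-! ### vocabularies with one unary function symbol -/

section

variable {V : Type u} {G : SimpleGraph V} {F : V → V}

lemma backward (hF : ∀ x y, G.Adj x y → F x = y ∨ F y = x) {v b : V} (p : G.Walk v b)
    (hp : p.IsPath) : ∀ a : V, G.Adj a v → a ∉ p.support → F v = a →
      F b ≠ b ∧ F b ∈ a :: p.support := by
  induction p with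
  | nil =>
    intro a hav _ hFv
    rw [hFv]
    exact ⟨hav.ne, List.mem_cons_self⟩
  | @cons v w b h q ih =>
    intro a hav ha hFv
    rw [SimpleGraph.Walk.cons_isPath_iff] at hp
    have hw : w ≠ a := by
      rintro rfl
      apply ha
      rw [SimpleGraph.Walk.support_cons]
      exact List.mem_cons_of_mem _ q.start_mem_support
    have hFw : F w = v := by
      rcases hF v w h with h1 | h1
      · exact absurd (h1.symm.trans hFv) hw
      · exact h1
    obtain ⟨h1, h2⟩ := ih hp.1 v h hp.2 hFw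
    refine ⟨h1, ?_⟩
    rw [SimpleGraph.Walk.support_cons]
    exact List.mem_cons_of_mem _ h2

lemma path_end (hF : ∀ x y, G.Adj x y → F x = y ∨ F y = x) {a b : V} (hab : a ≠ b)
    (p : G.Walk a b) (hp : p.IsPath) :
    (F a ≠ a ∧ F a ∈ p.support) ∨ (F b ≠ b ∧ F b ∈ p.support) := by
  cases p with
  | nil => exact absurd rfl hab
  | @cons _ v _ h q =>
    rw [SimpleGraph.Walk.cons_isPath_iff] at hp
    rw [SimpleGraph.Walk.support_cons]
    rcases hF a v h with h1 | h1
    · left
      rw [h1]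
      exact ⟨h.ne', List.mem_cons_of_mem _ q.start_mem_support⟩
    · right
      exact backward hF q hp.1 a h hp.2 h1

lemma no_subdivision_of_outdegree (hF : ∀ x y, G.Adj x y → F x = y ∨ F y = x)
    {κ : Cardinal.{u}} (hκ : ℵ₀ ≤ κ) : ¬ Gr.HasCompleteSubdivision G κ := by
  rintro ⟨B, p, hB, hp, hq⟩
  have hinf : Infinite B := by
    rw [Cardinal.infinite_iff, hB]
    exact hκ
  let cl : B → B → Prop := fun a b =>
    a ≠ b ∧ F a.1 ≠ a.1 ∧ (F a.1 ∈ (p a b).support ∨ F a.1 ∈ (p b a).support)
  have htot : ∀ a b : B, a ≠ b → cl a b ∨ cl b a := by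
    intro a b hab
    have hab' : a.1 ≠ b.1 := fun h => hab (Subtype.ext h)
    rcases path_end hF hab' (p a b) (hp a b hab).1 with ⟨h1, h2⟩ | ⟨h1, h2⟩
    · exact Or.inl ⟨hab, h1, Or.inl h2⟩
    · exact Or.inr ⟨hab.symm, h1, Or.inr h2⟩
  have huniq : ∀ a b c : B, cl a b → cl a c → b = c := by
    intro a b c hb hc
    by_contra hbc
    obtain ⟨hab, hFa, h1⟩ := hb
    obtain ⟨hac, -, h2⟩ := hc
    have hmemB : F a.1 ∈ B := by
      have n1 : s(a, b) ≠ s(a, c) := by
        intro h
        rw [Sym2.eq_iff] at h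
        rcases h with ⟨-, h⟩ | ⟨h, -⟩
        · exact hbc h
        · exact hac h
      have n2 : s(a, b) ≠ s(c, a) := by rwa [Sym2.eq_swap (a := c)]
      have n3 : s(b, a) ≠ s(a, c) := by rwa [Sym2.eq_swap (a := b)]
      have n4 : s(b, a) ≠ s(c, a) := by rwa [Sym2.eq_swap (a := b)]
      rcases h1 with h1 | h1 <;> rcases h2 with h2 | h2
      · exact hq a b a c hab hac n1 _ h1 h2
      · exact hq a b c a hab hac.symm n2 _ h1 h2
      · exact hq b a a c hab.symm hac n3 _ h1 h2
      · exact hq b a c a hab.symm hac.symm n4 _ h1 h2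
    have e1 : F a.1 = b.1 := by
      rcases h1 with h1 | h1
      · rcases (hp a b hab).2 _ h1 hmemB with h | h
        · exact absurd h hFa
        · exact h
      · rcases (hp b a hab.symm).2 _ h1 hmemB with h | h
        · exact h
        · exact absurd h hFa
    have e2 : F a.1 = c.1 := by
      rcases h2 with h2 | h2
      · rcases (hp a c hac).2 _ h2 hmemB with h | h
        · exact absurd h hFa
        · exact h
      · rcases (hp c a hac.symm).2 _ h2 hmemB with h | h
        · exact h
        · exact absurd h hFa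
    exact hbc (Subtype.ext (e1.symm.trans e2))
  have hfin : ∀ a : B, {b : B | cl a b}.Finite := by
    intro a
    exact Set.Subsingleton.finite fun b hb c hc => huniq a b c hb hc
  obtain ⟨a₀, a₁, h01⟩ := exists_pair_ne B
  obtain ⟨a₂, h2⟩ := ((((Set.finite_singleton a₀).union (Set.finite_singleton a₁)).union
    (hfin a₀)).union (hfin a₁)).exists_notMem
  simp only [Set.mem_union, Set.mem_singleton_iff, Set.mem_ofPred_eq, not_or] at h2
  obtain ⟨⟨⟨h3, h4⟩, h5⟩, h6⟩ := h2
  have h7 := (htot a₀ a₂ (Ne.symm h3)).resolve_left h5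
  have h8 := (htot a₁ a₂ (Ne.symm h4)).resolve_left h6
  exact h01 (huniq a₂ a₀ a₁ h7 h8)

end

lemma no_subdivision_oneUnary {L : Language.{u, u}} (hL : OneUnaryFunction L) (M : Type u)
    [L.Structure M] {κ : Cardinal.{u}} (hκ : ℵ₀ ≤ κ) :
    ¬ Gr.HasCompleteSubdivision (gaifmanF L M) κ := by
  classical
  obtain ⟨hL1, hL2, hL3⟩ := hL
  let F : M → M := fun x => if h : Nonempty (L.Functions 1) then
    Structure.funMap h.some (fun _ : Fin 1 => x) else x
  have hFf : ∀ (f : L.Functions 1) (v : Fin 1 → M), Structure.funMap f v = F (v 0) := by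
    intro f v
    have hne : Nonempty (L.Functions 1) := ⟨f⟩
    have h1 : F (v 0) = Structure.funMap hne.some (fun _ : Fin 1 => v 0) := dif_pos hne
    have h2 : f = hne.some := Subsingleton.elim _ _
    have h3 : v = fun _ : Fin 1 => v 0 := by
      funext i
      rw [Fin.fin_one_eq_zero i]
    rw [h1, ← h2, ← h3]
  refine no_subdivision_of_outdegree (F := F) ?_ hκ
  rintro x y ⟨hne, h | h⟩
  · obtain ⟨n, R, v, -, ⟨i, hi⟩, ⟨j, hj⟩⟩ := h
    match n, R, v, i, j, hi, hj with
    | 0, _, _, i, _, _, _ => exact i.elim0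
    | 1, _, v, i, j, hi, hj =>
      exfalso
      apply hne
      rw [← hi, ← hj, Fin.fin_one_eq_zero i, Fin.fin_one_eq_zero j]
    | n + 2, R, _, _, _, _, _ => exact ((hL3 (n + 2) (by omega)).false R).elim
  · obtain ⟨n, f, v, hx, hy⟩ := h
    match n, f, v, hx, hy with
    | 0, f, v, hx, hy =>
      exfalso
      apply hne
      have h1 : x = Structure.funMap f v := by
        rcases hx with hx | ⟨i, _⟩
        · exact hx
        · exact i.elim0
      have h2 : y = Structure.funMap f v := by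
        rcases hy with hy | ⟨i, _⟩
        · exact hy
        · exact i.elim0
      rw [h1, h2]
    | 1, f, v, hx, hy =>
      rw [hFf f v] at hx hy
      rcases hx with hx | ⟨i, hi⟩ <;> rcases hy with hy | ⟨j, hj⟩
      · exact absurd (hx.trans hy.symm) hne
      · right
        rw [Fin.fin_one_eq_zero j] at hj
        rw [← hj]
        exact hx.symm
      · left
        rw [Fin.fin_one_eq_zero i] at hi
        rw [← hi]
        exact hy.symm
      · exfalso
        apply hne
        rw [← hi, ← hj, Fin.fin_one_eq_zero i, Fin.fin_one_eq_zero j]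
    | n + 2, f, _, _, _ => exact ((hL2 (n + 2) (by omega)).false f).elim

theorem one_unary_function : ∀ l : Cardinal.{u}, ℵ₀ ≤ l → ∃ μ : Cardinal.{u}, l ≤ μ ∧
    ∀ (L : Language.{u, u}) (K : AEC L), OneUnaryFunction L → K.LS ≤ l →
      ∀ κ : Cardinal.{u}, μ ≤ κ → K.CategoricalIn κ →
        ∀ κ' : Cardinal.{u}, μ ≤ κ' → K.CategoricalIn κ' := by
  intro l hl
  obtain ⟨μ, hμ, h⟩ := all_vocabularies l hl
  refine ⟨μ, hμ, fun L K hL hK κ hκ hcat κ' hκ' => ?_⟩
  exact h L K hK κ hκ hcat
    (fun M _ _ _ => no_subdivision_oneUnary hL M (hl.trans (hμ.trans hκ))) κ' hκ'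

end Vale.Agent.P307.H67
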