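import Vale.Agent.P307.H67.Rel

universe u

namespace Vale.Agent.P307.H67

open FirstOrder Cardinal Language

variable {L : Language.{u, u}}

/-- every graph symbol is the graph of a function -/
def Fnl (N : Type u) [(relLang L).Structure N] : Prop :=
  ∀ (n : ℕ) (f : L.Functions n) (v : Fin n → N),
    ∃! y : N, Structure.RelMap (fS f) (Fin.cons y v : Fin (n + 1) → N)

lemma Fnl.of_pres {N₀ N : Type u} [L.Structure N₀] [(relLang L).Structure N]
    (e : N₀ ≃[relLang L] N) : Fnl (L := L) N := by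
  intro n f v
  have key : ∀ y : N, Structure.RelMap (fS f) (Fin.cons y v : Fin (n + 1) → N) ↔
      Structure.funMap f (fun i => e.symm (v i)) = e.symm y := by
    intro y
    have h1 := e.symm.map_rel (fS f) (Fin.cons y v : Fin (n + 1) → N)
    rw [← h1, relMap_fS]
    simp only [Function.comp_apply, Fin.cons_succ, Fin.cons_zero]
  refine ⟨e (Structure.funMap f (fun i => e.symm (v i))), ?_, ?_⟩
  · change Structure.RelMap (fS f) (Fin.cons (e (Structure.funMap f (fun i => e.symm (v i)))) v :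
      Fin (n + 1) → N)
    rw [key, e.symm_apply_apply]
  · intro y hy
    have hy' := (key y).1 hy
    rw [hy', e.apply_symm_apply]

lemma Fnl.of_mem {K : AEC L} {N : Type u} [(relLang L).Structure N] (h : memR K N) :
    Fnl (L := L) N := by
  obtain ⟨N₀, _, -, ⟨e⟩⟩ := h
  exact Fnl.of_pres e

/-- a copy of the type `N` -/
def Cp (N : Type u) : Type u := N

/-- the structure with functions on a functional relational structure -/
@[reducible] noncomputable def cpStr {N : Type u} [(relLang L).Structure N] (h : Fnl (L := L) N) :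
    L.Structure (Cp N) where
  funMap := fun {n} f v => (h n f v).choose
  RelMap := fun {_} R v => Structure.RelMap (M := N) (rS R) v

/-- the tautological presentation -/
def cpEquiv {N : Type u} [(relLang L).Structure N] (h : Fnl (L := L) N) :
    letI := cpStr h
    Cp N ≃[relLang L] N :=
  letI := cpStr h
  { toEquiv := Equiv.refl N
    map_fun' := fun f => PEmpty.elim f
    map_rel' := by
      intro n R x
      revert x
      refine rel_cases (C := fun n R => ∀ x : Fin n → Cp N,
        Structure.RelMap (M := N) R ((Equiv.refl N) ∘ x) ↔ Structure.RelMap (M := Cp N) R x)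
        ?_ ?_ n R
      · intro n R x
        exact Iff.rfl
      · intro n f x
        rw [relMap_fS]
        have hs := (h n f (fun i => x i.succ)).choose_spec
        have hx : (Fin.cons (x 0) (fun i : Fin n => x i.succ) : Fin (n + 1) → N) = x :=
          Fin.cons_self_tail x
        constructor
        · intro hr
          have := hs.2 (x 0) (by
            simp only
            rw [hx]
            exact hr)
          exact this.symm
        · intro hf
          have h1 := hs.1
          have hf' : (h n f (fun i => x i.succ)).choose = x 0 := hf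
          simp only at h1
          rw [hf', hx] at h1
          exact h1 }

section

variable {K : AEC L}

lemma memR_iso {M N : Type u} [(relLang L).Structure M] [(relLang L).Structure N]
    (e : M ≃[relLang L] N) (h : memR K M) : memR K N := by
  obtain ⟨N₀, _, hm, ⟨e₀⟩⟩ := h
  exact ⟨N₀, inferInstance, hm, ⟨e.comp e₀⟩⟩

lemma leR_iso {M N : Type u} [(relLang L).Structure M] [(relLang L).Structure N]
    (e : M ≃[relLang L] N) (S : (relLang L).Substructure M) (h : leR K S) :
    leR K (S.map e.toHom) := by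
  obtain ⟨N₀, _, e₀, T, hT, hmem⟩ := h
  refine ⟨N₀, inferInstance, e.comp e₀, T, hT, fun x => ?_⟩
  rw [hmem x, Substructure.mem_map]
  constructor
  · intro hx
    exact ⟨e₀ x, hx, rfl⟩
  · rintro ⟨y, hy, hyx⟩
    have : y = e₀ x := e.injective hyx
    rw [← this]
    exact hy

lemma leR_top {N : Type u} [(relLang L).Structure N] (h : memR K N) :
    leR K (⊤ : (relLang L).Substructure N) := by
  obtain ⟨N₀, _, hm, ⟨e₀⟩⟩ := h
  exact ⟨N₀, inferInstance, e₀, ⊤, K.le_refl hm, fun x => by simp⟩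

lemma chain_smoothR {N : Type u} [(relLang L).Structure N] {ι : Type u} [LinearOrder ι]
    [WellFoundedLT ι] [Nonempty ι] (S : ι → (relLang L).Substructure N)
    (hmono : ∀ i j, i ≤ j → S i ≤ S j) (h : ∀ i, leR K (S i)) : leR K (⨆ i, S i) := by
  obtain ⟨i₀⟩ := ‹Nonempty ι›
  have : Nonempty ι := ⟨i₀⟩
  obtain ⟨N₀, _, e, -, -, -⟩ := h i₀
  have h1 := fun i => (h i).pres e
  choose T hT hmem using h1
  have hTmono : ∀ i j, i ≤ j → T i ≤ T j := fun i j hij x hx =>
    (hmem j x).2 (hmono i j hij ((hmem i x).1 hx))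
  refine ⟨N₀, inferInstance, e, ⨆ i, T i, K.chain_smooth T hTmono hT, fun x => ?_⟩
  have d1 : Directed (· ≤ ·) T := directed_of_isDirected_le (fun i j hij => hTmono i j hij)
  have d2 : Directed (· ≤ ·) S := directed_of_isDirected_le (fun i j hij => hmono i j hij)
  rw [Substructure.mem_iSup_of_directed d1, Substructure.mem_iSup_of_directed d2]
  exact exists_congr fun i => hmem i x

lemma chain_unionR {U : Type u} [(relLang L).Structure U] {ι : Type u} [LinearOrder ι]
    [WellFoundedLT ι] [Nonempty ι] (S : ι → (relLang L).Substructure U)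
    (hmono : ∀ i j, i ≤ j → S i ≤ S j)
    (hle : ∀ i j, i ≤ j → leR K ((S i).comap (S j).subtype.toHom))
    (hcov : ∀ x : U, ∃ i, x ∈ S i) : memR K U ∧ ∀ i, leR K (S i) := by
  classical
  have hfi : ∀ i, Fnl (L := L) (S i) := fun i => Fnl.of_mem (hle i i le_rfl).mem.2
  -- finitely many elements lie in a member of the chain
  have hfin : ∀ {n : ℕ} (v : Fin n → U) (i₁ : ι), ∃ i, i₁ ≤ i ∧ ∀ k, v k ∈ S i := by
    intro n v i₁
    choose c hc using hcov
    refine ⟨(Finset.univ.image (fun k => c (v k)) ∪ {i₁}).max' ⟨i₁, by simp⟩, ?_, fun k => ?_⟩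
    · exact Finset.le_max' _ _ (by simp)
    · refine hmono (c (v k)) _ (Finset.le_max' _ _ ?_) (hc (v k))
      rw [Finset.mem_union]
      left
      exact Finset.mem_image_of_mem _ (Finset.mem_univ k)
  have hex : ∀ (n : ℕ) (f : L.Functions n) (v : Fin n → U) (i : ι) (hv : ∀ k, v k ∈ S i),
      ∃ y ∈ S i, Structure.RelMap (fS f) (Fin.cons y v : Fin (n + 1) → U) := by
    intro n f v i hv
    obtain ⟨y, hy, -⟩ := hfi i n f (fun k => ⟨v k, hv k⟩)
    refine ⟨y, y.2, ?_⟩
    have : (Fin.cons (y : U) v : Fin (n + 1) → U) =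
        fun j => ((Fin.cons y (fun k => (⟨v k, hv k⟩ : S i)) : Fin (n + 1) → S i) j : U) := by
      funext j
      refine Fin.cases ?_ (fun k => ?_) j
      · rfl
      · rfl
    rw [this]
    exact hy
  have huniq : ∀ (n : ℕ) (f : L.Functions n) (v : Fin n → U) (y y' : U),
      Structure.RelMap (fS f) (Fin.cons y v : Fin (n + 1) → U) →
      Structure.RelMap (fS f) (Fin.cons y' v : Fin (n + 1) → U) → y = y' := by
    intro n f v y y' h1 h2
    obtain ⟨i₁⟩ := ‹Nonempty ι›
    obtain ⟨i, -, hi⟩ := hfin (Fin.cons y (Fin.cons y' v) : Fin (n + 2) → U) i₁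
    have hy : y ∈ S i := hi 0
    have hy' : y' ∈ S i := hi 1
    have hv : ∀ k, v k ∈ S i := fun k => hi k.succ.succ
    obtain ⟨z, -, hz⟩ := hfi i n f (fun k => ⟨v k, hv k⟩)
    have hcase : ∀ w (hw : w ∈ S i),
        Structure.RelMap (fS f) (Fin.cons w v : Fin (n + 1) → U) → (⟨w, hw⟩ : S i) = z := by
      intro w hw hrel
      apply hz
      have : (Fin.cons w v : Fin (n + 1) → U) = fun j =>
          ((Fin.cons (⟨w, hw⟩ : S i) (fun k => (⟨v k, hv k⟩ : S i)) : Fin (n + 1) → S i) j : U) := by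
        funext j
        refine Fin.cases ?_ (fun k => ?_) j
        · rfl
        · rfl
      rw [this] at hrel
      exact hrel
    have e1 := hcase y hy h1
    have e2 := hcase y' hy' h2
    exact congrArg Subtype.val (e1.trans e2.symm)
  have hF : Fnl (L := L) U := by
    intro n f v
    obtain ⟨i₁⟩ := ‹Nonempty ι›
    obtain ⟨i, -, hi⟩ := hfin v i₁
    obtain ⟨y, -, hy⟩ := hex n f v i hi
    exact ⟨y, hy, fun y' hy' => huniq n f v y' y hy' hy⟩
  let inst : L.Structure (Cp U) := cpStr hF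
  let e : Cp U ≃[relLang L] U := cpEquiv hF
  have he : ∀ x : Cp U, e x = x := fun _ => rfl
  let T : ι → L.Substructure (Cp U) := fun i =>
    { carrier := {x : Cp U | e x ∈ S i}
      fun_mem := by
        intro n f v hv
        obtain ⟨y, hyi, hy⟩ := hex n f v i hv
        have h1 : (Structure.funMap f v : Cp U) = y :=
          huniq n f v _ _ (hF n f v).choose_spec.1 hy
        change e (Structure.funMap f v) ∈ S i
        rw [h1]
        exact hyi }
  have hTmem : ∀ i (x : Cp U), x ∈ T i ↔ e x ∈ S i := fun i x => Iff.rfl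
  have hTmono : ∀ i j, i ≤ j → T i ≤ T j := fun i j hij x hx => hmono i j hij hx
  have hTle : ∀ i j, i ≤ j → K.le ((T i).comap (T j).subtype.toHom) := by
    intro i j hij
    obtain ⟨T', hT', hmem⟩ := (hle i j hij).pres (subEquiv e (T j) (S j) (hTmem j))
    have : (T i).comap (T j).subtype.toHom = T' := by
      ext x
      rw [hmem x, Substructure.mem_comap, Substructure.mem_comap]
      exact Iff.rfl
    rw [this]
    exact hT'
  obtain ⟨h1, h2⟩ := K.chain_union T hTmono hTle hcov
  exact ⟨⟨Cp U, inferInstance, h1, ⟨e⟩⟩, fun i => ⟨Cp U, inferInstance, e, T i, h2 i, hTmem i⟩⟩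

lemma card_relLang (L : Language.{u, u}) : (relLang L).card ≤ L.card := by
  let g : (relLang L).Symbols → L.Symbols := fun s =>
    match s with
    | Sum.inl ⟨_, f⟩ => PEmpty.elim f
    | Sum.inr ⟨n, Sum.inl R⟩ => Sum.inr ⟨n, R⟩
    | Sum.inr ⟨0, Sum.inr f⟩ => PEmpty.elim f
    | Sum.inr ⟨k + 1, Sum.inr f⟩ => Sum.inl ⟨k, f⟩
  have hg : Function.Injective g := by
    intro s t hst
    match s, t, hst with
    | Sum.inl ⟨_, f⟩, _, _ => exact PEmpty.elim f
    | _, Sum.inl ⟨_, f⟩, _ => exact PEmpty.elim f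
    | Sum.inr ⟨0, Sum.inr f⟩, _, _ => exact PEmpty.elim f
    | _, Sum.inr ⟨0, Sum.inr f⟩, _ => exact PEmpty.elim f
    | Sum.inr ⟨n, Sum.inl R⟩, Sum.inr ⟨m, Sum.inl R'⟩, hst =>
      simp only [g, Sum.inr.injEq, Sigma.mk.injEq] at hst
      obtain ⟨rfl, hst⟩ := hst
      rw [heq_iff_eq] at hst
      rw [hst]
    | Sum.inr ⟨k + 1, Sum.inr f⟩, Sum.inr ⟨k' + 1, Sum.inr f'⟩, hst =>
      simp only [g, Sum.inl.injEq] at hst
      cases hst
      rfl
    | Sum.inr ⟨n, Sum.inl R⟩, Sum.inr ⟨k' + 1, Sum.inr f'⟩, hst => simp [g] at hst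
    | Sum.inr ⟨k + 1, Sum.inr f⟩, Sum.inr ⟨m, Sum.inl R'⟩, hst => simp [g] at hst
  exact Cardinal.mk_le_of_injective hg

lemma lsR {l : Cardinal.{u}} (h : K.IsLS l) {N : Type u} [(relLang L).Structure N]
    (hN : memR K N) (A : Set N) :
    ∃ S : (relLang L).Substructure N, leR K S ∧ A ⊆ S ∧ #S ≤ #A + l := by
  obtain ⟨N₀, _, hm, ⟨e⟩⟩ := hN
  obtain ⟨T, hT, hAT, hc⟩ := h.2.2 N₀ hm (e ⁻¹' A)
  let S : (relLang L).Substructure N :=
    { carrier := {y | e.symm y ∈ T}
      fun_mem := fun f => PEmpty.elim f }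
  have hmem : ∀ x, x ∈ T ↔ e x ∈ S := by
    intro x
    change x ∈ T ↔ e.symm (e x) ∈ T
    rw [e.symm_apply_apply]
  refine ⟨S, ⟨N₀, inferInstance, e, T, hT, hmem⟩, ?_, ?_⟩
  · intro y hy
    change e.symm y ∈ T
    apply hAT
    change e (e.symm y) ∈ A
    rw [e.apply_symm_apply]
    exact hy
  · have h1 : #S = #T := (Cardinal.mk_congr (subEquiv e T S hmem).toEquiv).symm
    have h2 : #(e ⁻¹' A : Set N₀) = #A := by
      refine Cardinal.mk_congr (Equiv.ofBijective (fun x => (⟨e x.1, x.2⟩ : A)) ⟨?_, ?_⟩)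
      · intro x y hxy
        have : e x.1 = e y.1 := congrArg Subtype.val hxy
        exact Subtype.ext (e.injective this)
      · intro y
        refine ⟨⟨e.symm y.1, ?_⟩, ?_⟩
        · change e (e.symm y.1) ∈ A
          rw [e.apply_symm_apply]
          exact y.2
        · exact Subtype.ext (e.apply_symm_apply _)
    rw [h1, ← h2]
    exact hc

end

/-- the abstract elementary class of the relational reducts -/
def relAEC (K : AEC L) : AEC (relLang L) where
  mem := fun N _ => memR K N
  le := fun S => leR K S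
  mem_iso := fun e h => memR_iso e h
  le_iso := fun e S h => leR_iso e S h
  mem_of_le := fun _ h => h.mem
  le_refl := fun h => leR_top h
  le_trans := fun T S hS hT => leR.trans T S hS hT
  coherence := fun S T hST hS hT => leR.coh S T hST hS hT
  chain_union := fun S h1 h2 h3 => chain_unionR S h1 h2 h3
  chain_smooth := fun S h1 h2 => chain_smoothR S h1 h2
  exists_ls := by
    obtain ⟨l, h1, h2, h3⟩ := K.exists_ls
    exact ⟨l, h1, (card_relLang L).trans h2, fun hN A => lsR ⟨h1, h2, fun N _ hN A => h3 hN A⟩ hN A⟩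

lemma relAEC_isLS {K : AEC L} {l : Cardinal.{u}} (h : K.IsLS l) : (relAEC K).IsLS l :=
  ⟨h.1, (card_relLang L).trans h.2.1, fun _ _ hN A => lsR h hN A⟩

lemma relAEC_LS {K : AEC L} {l : Cardinal.{u}} (h : K.LS ≤ l) : (relAEC K).LS ≤ l :=
  csInf_le' (relAEC_isLS (AEC.isLS_of_LS_le h))

lemma memR_self {K : AEC L} {M : Type u} [L.Structure M] (h : K.mem M) : (relAEC K).mem M :=
  ⟨M, inferInstance, h, ⟨Language.Equiv.refl _ _⟩⟩

lemma categorical_iff {K : AEC L} {κ : Cardinal.{u}} :
    (relAEC K).CategoricalIn κ ↔ K.CategoricalIn κ := by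
  constructor
  · rintro ⟨⟨M, strM, hM, hc⟩, huniq⟩
    refine ⟨?_, ?_⟩
    · obtain ⟨M₀, _, hM₀, ⟨e⟩⟩ := hM
      exact ⟨M₀, inferInstance, hM₀, (Cardinal.mk_congr e.toEquiv).trans hc⟩
    · intro A B _ _ hA hB hAc hBc
      obtain ⟨e⟩ := huniq A B (memR_self hA) (memR_self hB) hAc hBc
      exact ⟨isoOfRel e⟩
  · rintro ⟨⟨M, strM, hM, hc⟩, huniq⟩
    refine ⟨⟨M, inferInstance, memR_self hM, hc⟩, ?_⟩
    intro A B _ _ hA hB hAc hBc
    obtain ⟨A₀, _, hA₀, ⟨eA⟩⟩ := hA
    obtain ⟨B₀, _, hB₀, ⟨eB⟩⟩ := hB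
    obtain ⟨e⟩ := huniq A₀ B₀ hA₀ hB₀ ((Cardinal.mk_congr eA.toEquiv).trans hAc)
      ((Cardinal.mk_congr eB.toEquiv).trans hBc)
    exact ⟨(eB.comp (relOfIso e)).comp eA.symm⟩

end Vale.Agent.P307.H67
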