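import Vale.Agent.P307.H67.Few

universe u

namespace Vale.Agent.P307.H67

open FirstOrder Cardinal Set Language Structure

lemma aleph0_le_hanf (c : Cardinal.{u}) : ℵ₀ ≤ hanf c := by
  obtain ⟨x, -⟩ := exists_gt_of_small (le_max_right c ℵ₀) (∅ : Set (SuccTy (max c ℵ₀)))
    (by simp only [mk_eq_zero, le_sup_iff, zero_le, or_self])
  refine (aleph0_le_dSeq (max c ℵ₀) c x).trans ?_
  exact le_ciSup (f := fun i => dSeq (max c ℵ₀) c i) bddAbove_of_small x

/-- A class categorical in `κ ≥ 2 ^ l` has no long chains for a binary relation symbol. -/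
theorem no_long_chain {L : Language.{u, u}} {K : AEC L} {l κ : Cardinal.{u}} (hK : K.IsLS l)
    (hκ : 2 ^ l ≤ κ) (hcat : K.CategoricalIn κ) (R : L.Relations 2) {M : Type u} [L.Structure M]
    (hM : K.mem M) (C : Set M)
    (hC : ∀ x ∈ C, ∀ y ∈ C, x ≠ y → (RelMap R ![x, y] ↔ ¬ RelMap R ![y, x])) :
    #C < hanf (2 ^ l) := by
  classical
  by_contra hcon
  rw [not_lt] at hcon
  have hl := hK.1
  have hlκ : l ≤ κ := (cantor l).le.trans hκ
  have hκ0 : ℵ₀ ≤ κ := hl.trans hlκ
  let X : Type u := (#C).ord.ToType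
  have hX : #X = #C := by simp [X]
  obtain ⟨eq⟩ := Cardinal.eq.1 hX
  let x : X → M := fun i => (eq i).1
  have hxinj : Function.Injective x := Subtype.val_injective.comp eq.injective
  have hxC : ∀ i, x i ∈ C := fun i => (eq i).2
  have hXbig : hanf (2 ^ l) ≤ #X := by
    rw [hX]
    exact hcon
  have hXne : Nonempty X :=
    mk_ne_zero_iff.1 (aleph0_pos.trans_le ((aleph0_le_hanf _).trans hXbig)).ne'
  have hMne : Nonempty M := ⟨x (Classical.arbitrary X)⟩
  -- the expansion
  let Λ : Type u := l.out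
  have hΛ : #Λ = l := mk_out l
  obtain ⟨fn, hfn⟩ := Gr.exists_skolem hK hM (fun _ => ∅) (fun _ => by simp) hΛ.symm.le
  let L₁ : Language.{u, u} := L.sum (Gr.LX Λ PEmpty.{u + 1})
  let φ : L →ᴸ L₁ := LHom.sumInl
  let strX : (Gr.LX Λ PEmpty.{u + 1}).Structure M := Gr.lxStr fn (fun _ h _ => h.elim)
  have hL₁ : L₁.card ≤ l := Gr.card_LX_le hl hK.2.1 hΛ.le (by simp)
  have hcl1 : Gr.Cl1 K φ M := by
    intro S
    obtain ⟨S', h1, h2⟩ := (hfn S fun n ξ v hv =>
      S.fun_mem (Sum.inr ξ : L₁.Functions n) v hv).1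
    have h3 : φ.substructureReduct S = S' := SetLike.coe_injective h2.symm
    rw [h3]
    exact h1
  obtain ⟨a, ha1, ha2⟩ := exists_template (L := L₁) hl hL₁ x hXbig
  have hta : IsTemplate L₁ (fun n k => x (a n k)) := fun k n g hg => ha2 k n g hg
  let R₁ : L₁.Relations 2 := φ.onRelation R
  -- the direction of the order
  have hne01 : x (a 2 0) ≠ x (a 2 1) := by
    intro h
    exact absurd (hxinj h) ((ha1 2) (by decide : (0 : Fin 2) < 1)).ne
  have hsw : ∀ y z : M, (fun k => (![y, z] : Fin 2 → M) ((![1, 0] : Fin 2 → Fin 2) k)) =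
      ![z, y] := by
    intro y z
    funext k
    refine Fin.cases rfl (fun k => ?_) k
    refine Fin.cases rfl (fun k => k.elim0) k
  obtain ⟨σ, hσ1, hσ2⟩ : ∃ σ : Fin 2 → Fin 2,
      RelMap R (fun k => (![x (a 2 0), x (a 2 1)] : Fin 2 → M) (σ k)) ∧
      ¬ RelMap R (fun k => (![x (a 2 1), x (a 2 0)] : Fin 2 → M) (σ k)) := by
    have h1 := hC _ (hxC (a 2 0)) _ (hxC (a 2 1)) hne01
    by_cases h : RelMap R ![x (a 2 0), x (a 2 1)]
    · exact ⟨id, h, h1.1 h⟩
    · refine ⟨![1, 0], ?_, ?_⟩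
      · rw [hsw]
        exact not_not.1 fun h' => h (h1.2 h')
      · rw [hsw]
        exact h
  -- Ehrenfeucht-Mostowski models
  have main : ∀ (I : Type u) [LinearOrder I], #I = κ → ∃ (N : Type u) (_ : L₁.Structure N)
      (_ : L.Structure N) (_ : φ.IsExpansionOn N) (e : I → N),
      IsEM L₁ (fun n k => x (a n k)) e ∧ Substructure.closure L₁ (range e) = ⊤ ∧ K.mem N ∧
      #N = κ ∧ Function.Injective e ∧
      ∀ i j, i < j → RelMap R₁ (fun k => (![e i, e j] : Fin 2 → N) (σ k)) ∧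
        ¬ RelMap R₁ (fun k => (![e j, e i] : Fin 2 → N) (σ k)) := by
    intro I _ hI
    obtain ⟨N, strN, e, he, htop⟩ := exists_isEM hta I
    let strN' : L.Structure N := φ.reduct N
    have hloc := Gr.isEM_local he htop
    have hNK : K.mem N ∧ Gr.Cl1 K φ N := hcl1.transfer fun A => by
      obtain ⟨ρ⟩ := hloc A
      exact ⟨ρ, ρ.injective⟩
    have hinj : Function.Injective e := by
      have h1 : ∀ w w' : I, w < w' → e w ≠ e w' := by
        intro w w' hw h
        have hm : StrictMono (![w, w'] : Fin 2 → I) := by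
          rw [Fin.strictMono_iff_lt_succ]
          intro i
          have : i = 0 := Subsingleton.elim _ _
          subst this
          exact hw
        have hat : AtEq L₁ (fun k => e ((![w, w'] : Fin 2 → I) k)) (fun k => x (a 2 k)) :=
          he 2 _ hm
        have h2 := (hat.1 (Term.var 0) (Term.var 1)).1 h
        exact hne01 h2
      intro w w' h
      rcases lt_trichotomy w w' with hw | hw | hw
      · exact absurd h (h1 w w' hw)
      · exact hw
      · exact absurd h.symm (h1 w' w hw)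
    have hNκ : #N = κ := by
      apply le_antisymm
      · have h1 : ∀ x : N, ∃ t : L₁.Term I, t.realize e = x := fun x => by
          rw [← Gr.mem_closure_range, htop]
          trivial
        choose t ht using h1
        have h2 : #N ≤ #(L₁.Term I) := mk_le_of_injective (f := t) fun x y hxy => by
          rw [← ht x, ← ht y, hxy]
        exact h2.trans (mk_term_le hκ0 (hL₁.trans hlκ) I hI.le)
      · rw [← hI]
        exact mk_le_of_injective hinj
    refine ⟨N, strN, strN', inferInstance, e, he, htop, hNK.1, hNκ, hinj, ?_⟩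
    intro i j hij
    have hm : StrictMono (![i, j] : Fin 2 → I) := by
      rw [Fin.strictMono_iff_lt_succ]
      intro k
      have : k = 0 := Subsingleton.elim _ _
      subst this
      exact hij
    have hat : AtEq L₁ (fun k => e ((![i, j] : Fin 2 → I) k)) (fun k => x (a 2 k)) := he 2 _ hm
    have h3 : ∀ τ : Fin 2 → Fin 2, RelMap R₁ (fun k => (![e i, e j] : Fin 2 → N) (τ k)) ↔
        RelMap R (fun k => (![x (a 2 0), x (a 2 1)] : Fin 2 → M) (τ k)) := by
      intro τ
      have h4 := hat.2 2 R₁ (fun k => Term.var (τ k))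
      have h5 : (fun k => (Term.var (τ k) : L₁.Term (Fin 2)).realize
          (fun k => e ((![i, j] : Fin 2 → I) k))) = fun k => (![e i, e j] : Fin 2 → N) (τ k) := by
        funext k
        change e ((![i, j] : Fin 2 → I) (τ k)) = (![e i, e j] : Fin 2 → N) (τ k)
        generalize τ k = m
        refine Fin.cases rfl (fun m => ?_) m
        refine Fin.cases rfl (fun m => m.elim0) m
      have h6 : (fun k => (Term.var (τ k) : L₁.Term (Fin 2)).realize
          (fun k => x (a 2 k))) = fun k => (![x (a 2 0), x (a 2 1)] : Fin 2 → M) (τ k) := by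
        funext k
        change x (a 2 (τ k)) = (![x (a 2 0), x (a 2 1)] : Fin 2 → M) (τ k)
        generalize τ k = m
        refine Fin.cases rfl (fun m => ?_) m
        refine Fin.cases rfl (fun m => m.elim0) m
      rw [h5, h6] at h4
      exact h4.trans Iff.rfl
    refine ⟨(h3 σ).2 hσ1, fun h => hσ2 ?_⟩
    have h7 : ∀ {T : Type u} (y z : T), (fun k => (![y, z] : Fin 2 → T)
        ((![1, 0] : Fin 2 → Fin 2) (σ k))) = fun k => (![z, y] : Fin 2 → T) (σ k) := by
      intro T y z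
      funext k
      generalize σ k = m
      refine Fin.cases rfl (fun m => ?_) m
      refine Fin.cases rfl (fun m => m.elim0) m
    have h8 := h3 (fun k => (![1, 0] : Fin 2 → Fin 2) (σ k))
    rw [h7, h7] at h8
    exact h8.1 h
  -- a well-ordered set of indices, and one with many cuts
  obtain ⟨J, ordJ, D, Y, hJ, hD, hY, hYD, hsep⟩ := exists_many_cuts hl
  let I₁ : Type u := κ.ord.ToType
  have hI₁ : #I₁ = κ := by simp [I₁]
  let I₂ : Type u := J ⊕ₗ κ.ord.ToType
  have hI₂ : #I₂ = κ := by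
    have h1 : #I₂ = #(J ⊕ κ.ord.ToType) := rfl
    rw [h1, mk_sum, lift_id, lift_id, mk_toType, card_ord]
    exact add_eq_right hκ0 (hJ.trans hκ)
  obtain ⟨N₁, s1, s1', x1, e₁, he₁, htop₁, hN₁, hc₁, -, -⟩ := main I₁ hI₁
  obtain ⟨N₂, s2, s2', x2, e₂, he₂, htop₂, hN₂, hc₂, hinj₂, hR₂⟩ := main I₂ hI₂
  obtain ⟨f⟩ := hcat.2 N₂ N₁ hN₂ hN₁ hc₂ hc₁
  let A : Set N₁ := (fun d : J => f (e₂ (Sum.inlₗ d))) '' D
  have hA : #A ≤ l := mk_image_le.trans hD
  have hfew := few_cuts he₁ htop₁ hl hL₁ R₁ σ A hA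
  have hf : ∀ y z : N₂, RelMap R₁ (fun k => (![f y, f z] : Fin 2 → N₁) (σ k)) ↔
      RelMap R₁ (fun k => (![y, z] : Fin 2 → N₂) (σ k)) := by
    intro y z
    have h1 : RelMap R₁ (fun k => (![f y, f z] : Fin 2 → N₁) (σ k)) ↔
        RelMap R (fun k => (![f y, f z] : Fin 2 → N₁) (σ k)) := by
      rw [LHom.map_onRelation]
    have h2 : RelMap R₁ (fun k => (![y, z] : Fin 2 → N₂) (σ k)) ↔
        RelMap R (fun k => (![y, z] : Fin 2 → N₂) (σ k)) := by
      rw [LHom.map_onRelation]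
    rw [h1, h2, ← f.map_rel R]
    have h3 : (f ∘ fun k => (![y, z] : Fin 2 → N₂) (σ k)) =
        fun k => (![f y, f z] : Fin 2 → N₁) (σ k) := by
      funext k
      change f ((![y, z] : Fin 2 → N₂) (σ k)) = (![f y, f z] : Fin 2 → N₁) (σ k)
      generalize σ k = m
      refine Fin.cases rfl (fun m => ?_) m
      refine Fin.cases rfl (fun m => m.elim0) m
    rw [h3]
  have hlt : ∀ p p' : J, p < p' → (Sum.inlₗ p : I₂) < Sum.inlₗ p' := fun p p' h =>
    Sum.Lex.inl_lt_inl_iff.2 h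
  refine absurd (le_trans ?_ hfew) (not_le.2 hY)
  refine mk_le_of_injective (f := fun y : Y => (⟨_, f (e₂ (Sum.inlₗ y.1)), rfl⟩ :
    range (fun z : N₁ => {y : N₁ | y ∈ A ∧
      RelMap R₁ (fun k => (![y, z] : Fin 2 → N₁) (σ k))}))) ?_
  have hlt' : ∀ y y' : Y, y.1 < y'.1 →
      {z : N₁ | z ∈ A ∧ RelMap R₁ (fun k => (![z, f (e₂ (Sum.inlₗ y.1))] : Fin 2 → N₁) (σ k))} ≠
      {z : N₁ | z ∈ A ∧
        RelMap R₁ (fun k => (![z, f (e₂ (Sum.inlₗ y'.1))] : Fin 2 → N₁) (σ k))} := by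
    intro y y' hyy' h
    obtain ⟨d, hd, h1, h2⟩ := hsep y.1 y.2 y'.1 y'.2 hyy'
    have h3 : f (e₂ (Sum.inlₗ d)) ∈ {z : N₁ | z ∈ A ∧
        RelMap R₁ (fun k => (![z, f (e₂ (Sum.inlₗ y'.1))] : Fin 2 → N₁) (σ k))} :=
      ⟨⟨d, hd, rfl⟩, (hf _ _).2 (hR₂ _ _ (hlt _ _ h2)).1⟩
    rw [← h] at h3
    exact (hR₂ _ _ (hlt _ _ h1)).2 ((hf _ _).1 h3.2)
  intro y y' hyy'
  have h := congrArg Subtype.val hyy'
  rcases lt_trichotomy y.1 y'.1 with hw | hw | hw
  · exact absurd h (hlt' y y' hw)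
  · exact Subtype.ext hw
  · exact absurd h.symm (hlt' y' y hw)

end Vale.Agent.P307.H67
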