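import Vale.Agent.P307.H67.Enc

universe u

namespace Vale.Agent.P307.H67

open FirstOrder Cardinal Language Set

/-! ### subdivisions and injective homomorphisms -/

lemma subdivision_map {V V' : Type u} {G : SimpleGraph V} {G' : SimpleGraph V'} (f : G →g G')
    (hf : Function.Injective f) {κ : Cardinal.{u}} (h : Gr.HasCompleteSubdivision G κ) :
    Gr.HasCompleteSubdivision G' κ := by
  obtain ⟨B, p, hB, hp, hq⟩ := h
  have hc : ∀ a : f '' B, ∃ b : B, f b = a.1 := by
    rintro ⟨a, b, hb, rfl⟩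
    exact ⟨⟨b, hb⟩, rfl⟩
  choose c hc using hc
  have hinj : Function.Injective c := by
    intro a b hab
    apply Subtype.ext
    rw [← hc a, ← hc b, hab]
  have hsup : ∀ (a b : f '' B) (x : V'),
      x ∈ (((p (c a) (c b)).map f).copy (hc a) (hc b)).support ↔
        ∃ y ∈ (p (c a) (c b)).support, f y = x := by
    intro a b x
    rw [SimpleGraph.Walk.support_copy, SimpleGraph.Walk.support_map, List.mem_map]
  have hmem : ∀ y : V, f y ∈ f '' B ↔ y ∈ B := fun y => hf.mem_set_image
  refine ⟨f '' B, fun a b => ((p (c a) (c b)).map f).copy (hc a) (hc b), ?_, ?_, ?_⟩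
  · rw [mk_image_eq hf, hB]
  · intro a b hab
    obtain ⟨h1, h2⟩ := hp (c a) (c b) (fun h => hab (hinj h))
    refine ⟨?_, ?_⟩
    · rw [SimpleGraph.Walk.isPath_copy]
      exact SimpleGraph.Walk.IsPath.map hf h1
    · intro x hx hxB
      rw [hsup] at hx
      obtain ⟨y, hy, rfl⟩ := hx
      rcases h2 y hy ((hmem y).1 hxB) with h3 | h3
      · left
        rw [h3, hc a]
      · right
        rw [h3, hc b]
  · intro a b a' b' hab hab' hne x hx hx'
    rw [hsup] at hx hx'
    obtain ⟨y, hy, rfl⟩ := hx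
    obtain ⟨z, hz, hzy⟩ := hx'
    rw [hf hzy] at hz
    refine (hmem y).2 (hq (c a) (c b) (c a') (c b') (fun h => hab (hinj h))
      (fun h => hab' (hinj h)) ?_ y hy hz)
    intro h
    apply hne
    rw [Sym2.eq_iff] at h ⊢
    rcases h with ⟨h1, h2⟩ | ⟨h1, h2⟩
    · exact Or.inl ⟨hinj h1, hinj h2⟩
    · exact Or.inr ⟨hinj h1, hinj h2⟩

section

variable {L : Language.{u, u}} (Q : Set (L.Relations 2))

/-- the symbols of `Q` in the relational vocabulary -/
def Q1 : Set ((relLang L).Relations 2) := rS '' Q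

variable {Q}

lemma rS_mem {E : L.Relations 2} (hE : E ∈ Q) : rS E ∈ Q1 Q := ⟨E, hE, rfl⟩

/-- the embedding of the Gaifman graph of the decorated structure in the class graph -/
noncomputable def toClass (M : Type u) [L.Structure M] :
    Gr.gaifman (relLang L) (TT (Q1 Q) M) →g classGraph L Q M where
  toFun := fun a => match a with
    | Sum.inl x => Sum.inl x
    | Sum.inr p => Sum.inr (⟨p.1.1.2.choose, p.1.1.2.choose_spec.1⟩, p.1.2)
  map_rel' := by
    intro a b h
    have hcl : ∀ {E₁ : (relLang L).Relations 2} (hE₁ : E₁ ∈ Q1 Q) (x : M),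
        ({y | Structure.RelMap E₁ ![x, y]} : Set M) =
          {y | Structure.RelMap hE₁.choose ![x, y]} := by
      intro E₁ hE₁ x
      conv_lhs => rw [← hE₁.choose_spec.2]
      rfl
    obtain ⟨hne, n, R, v, hR, ⟨i, hi⟩, ⟨j, hj⟩⟩ := h
    rcases hR with ⟨hout, w, rfl, hR⟩ | ⟨E₁, hE₁, h1, x, hx⟩
    · dsimp only at hi hj
      subst hi hj
      change (restGraph L Q M).Adj (w i) (w j)
      refine ⟨fun h => hne (by rw [h]), ?_⟩
      revert w
      revert hout
      refine rel_cases (C := fun n R => ∀ (i j : Fin n), Outside (Q1 Q) R → ∀ w : Fin n → M,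
        Structure.RelMap R w → (Sum.inl (w i) : TT (Q1 Q) M) ≠ Sum.inl (w j) →
        ((∃ (n : ℕ) (R : L.Relations n) (v : Fin n → M), Outside Q R ∧
          Language.Structure.RelMap R v ∧ w i ∈ Set.range v ∧ w j ∈ Set.range v) ∨
        ∃ (n : ℕ) (f : L.Functions n) (v : Fin n → M),
          (w i = Language.Structure.funMap f v ∨ w i ∈ Set.range v) ∧
          (w j = Language.Structure.funMap f v ∨ w j ∈ Set.range v))) ?_ ?_ n R i j
      · intro n R i j hout w hR _
        refine Or.inl ⟨n, R, w, ?_, hR, ⟨i, rfl⟩, ⟨j, rfl⟩⟩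
        intro E hE h
        cases h
        exact hout _ (rS_mem hE) rfl
      · intro n f i j _ w hR _
        rw [relMap_fS] at hR
        have key : ∀ i : Fin (n + 1), w i = Structure.funMap f (fun i => w i.succ) ∨
            w i ∈ Set.range (fun i : Fin n => w i.succ) := by
          intro i
          refine Fin.cases ?_ (fun j => ?_) i
          · left
            exact hR.symm
          · right
            exact ⟨j, rfl⟩
        exact Or.inr ⟨n, f, fun i => w i.succ, key i, key j⟩
    · cases h1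
      have hfin : ∀ k : Fin 2, k = 0 ∨ k = 1 := by decide
      have h0 : v 0 = Sum.inl x := hx 0
      have h1 : v 1 = Sum.inr (cl hE₁ x) := hx 1
      have hadj : (classGraph L Q M).Adj (Sum.inl x)
          (Sum.inr (⟨hE₁.choose, hE₁.choose_spec.1⟩, {y | Structure.RelMap E₁ ![x, y]})) := hcl hE₁ x
      rcases hfin i with rfl | rfl <;> rcases hfin j with rfl | rfl
      · exact absurd (hi.symm.trans hj) hne
      · rw [h0] at hi
        rw [h1] at hj
        subst hi hj
        exact hadj
      · rw [h1] at hi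
        rw [h0] at hj
        subst hi hj
        exact hadj.symm
      · exact absurd (hi.symm.trans hj) hne

lemma toClass_injective (M : Type u) [L.Structure M] :
    Function.Injective (toClass (Q := Q) M) := by
  intro a b h
  match a, b, h with
  | Sum.inl x, Sum.inl y, h => exact congrArg Sum.inl (Sum.inl_injective h)
  | Sum.inl x, Sum.inr p, h => cases h
  | Sum.inr p, Sum.inl x, h => cases h
  | Sum.inr p, Sum.inr q, h =>
    have h1 := Sum.inr_injective h
    have h2 : p.1.1.2.choose = q.1.1.2.choose := congrArg (fun r => r.1.1) h1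
    have h3 : p.1.2 = q.1.2 := congrArg (fun r => r.2) h1
    have h4 : p.1.1.1 = q.1.1.1 := by
      rw [← p.1.1.2.choose_spec.2, ← q.1.1.2.choose_spec.2, h2]
    exact congrArg Sum.inr (Subtype.ext (Prod.ext (Subtype.ext h4) h3))

/-- the transfer for classes with equivalence relations -/
theorem class_graph_transfer : ∀ l : Cardinal.{u}, ℵ₀ ≤ l → ∃ μ : Cardinal.{u}, l < μ ∧
    ∀ (L : Language.{u, u}) (Q : Set (L.Relations 2)) (K : AEC L), K.LS ≤ l →
      (∀ (M : Type u) [L.Structure M], K.mem M →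
        ∀ E ∈ Q, Equivalence fun x y : M => Structure.RelMap E ![x, y]) →
      ∀ κ : Cardinal.{u}, μ ≤ κ → K.CategoricalIn κ →
        (∀ (M : Type u) [L.Structure M], K.mem M → #M = κ →
          ¬ Gr.HasCompleteSubdivision (classGraph L Q M) κ) →
        ∀ κ' : Cardinal.{u}, μ ≤ κ' → K.CategoricalIn κ' := by
  intro l _
  refine ⟨max (Gr.muG (max l (hanf (2 ^ l)))) (Order.succ l),
    (Order.lt_succ l).trans_le (le_max_right _ _), ?_⟩
  intro L Q K hK hEq κ hκ hcat hno κ' hκ'
  have hLS := relAEC_isLS (AEC.isLS_of_LS_le hK)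
  have hEq₁ : ∀ (N : Type u) [(relLang L).Structure N], (relAEC K).mem N →
      ∀ E ∈ Q1 Q, Equivalence fun x y : N => Structure.RelMap E ![x, y] := by
    intro N _ hN E₁ hE₁
    obtain ⟨N₀, _, hN₀, ⟨e⟩⟩ := hN
    obtain ⟨E, hE, rfl⟩ := hE₁
    have h0 := hEq N₀ hN₀ E hE
    have h1 : ∀ x y : N, Structure.RelMap (rS E) ![x, y] ↔
        Structure.RelMap E ![e.symm x, e.symm y] := by
      intro x y
      rw [← map_rel2 e.symm]
      exact Iff.rfl
    refine ⟨fun x => (h1 x x).2 (h0.refl _), fun {x y} h => (h1 y x).2 (h0.symm ((h1 x y).1 h)),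
      fun {x y z} h h' => (h1 x z).2 (h0.trans ((h1 x y).1 h) ((h1 y z).1 h'))⟩
  have hκl : l < κ := (Order.lt_succ l).trans_le ((le_max_right _ _).trans hκ)
  have hκl' : l < κ' := (Order.lt_succ l).trans_le ((le_max_right _ _).trans hκ')
  have hQ : #(Q1 Q) ≤ l := (mk_Q_le (Q1 Q)).trans hLS.2.1
  rw [← categorical_iff, ← cat_iff hLS hκl' hEq₁]
  rw [← categorical_iff, ← cat_iff hLS hκl hEq₁] at hcat
  refine Gr.categorical_transfer' (imAEC_isLS hLS) ?_ ((le_max_left _ _).trans hκ) hcat
    ((le_max_left _ _).trans hκ')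
  intro N _ hN hc hsub
  obtain ⟨hG, hm⟩ := hN
  have hc' := (card_D_iff hG hLS.1 hQ hκl).1 hc
  obtain ⟨N₀, _, hN₀, ⟨e⟩⟩ := hm
  have hEq₀ := hEq₁ N₀ (memR_self hN₀)
  have e' : TT (Q1 Q) N₀ ≃[relLang L] N := lift (e.comp (dTT hEq₀).symm) good_TT hG
  refine hno N₀ hN₀ ((mk_congr e.toEquiv).trans hc') ?_
  exact subdivision_map (toClass N₀) (toClass_injective N₀)
    (subdivision_iso (gaifmanIso e'.symm) hsub)

end

end Vale.Agent.P307.H67
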