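import Vale.Agent.P307.H67.Defs

universe u

namespace Vale.Agent.P307.H67

open FirstOrder Cardinal

/-- The relation symbol `R` is none of the binary relation symbols in the set `Q`. -/
def Outside {L : Language.{u, u}} (Q : Set (L.Relations 2)) {n : ℕ} (R : L.Relations n) : Prop :=
  ∀ E ∈ Q, (⟨n, R⟩ : Σ k, L.Relations k) ≠ ⟨2, E⟩

/-- The Gaifman graph of the reduct of `M` to the symbols outside `Q`: two distinct elements are
adjacent when they occur together in a tuple satisfying some relation symbol outside `Q`, or in a
tuple `(f v, v)` for some function symbol `f`. -/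
def restGraph (L : Language.{u, u}) (Q : Set (L.Relations 2)) (M : Type u) [L.Structure M] :
    SimpleGraph M where
  Adj x y := x ≠ y ∧
    ((∃ (n : ℕ) (R : L.Relations n) (v : Fin n → M), Outside Q R ∧
      Language.Structure.RelMap R v ∧ x ∈ Set.range v ∧ y ∈ Set.range v) ∨
    ∃ (n : ℕ) (f : L.Functions n) (v : Fin n → M),
      (x = Language.Structure.funMap f v ∨ x ∈ Set.range v) ∧
      (y = Language.Structure.funMap f v ∨ y ∈ Set.range v))
  symm := ⟨by
    rintro x y ⟨h, h' | h'⟩
    · obtain ⟨n, R, v, h0, h1, h2, h3⟩ := h'
      exact ⟨h.symm, Or.inl ⟨n, R, v, h0, h1, h3, h2⟩⟩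
    · obtain ⟨n, f, v, h2, h3⟩ := h'
      exact ⟨h.symm, Or.inr ⟨n, f, v, h3, h2⟩⟩⟩
  loopless := ⟨fun _ h => h.1 rfl⟩

/-- The class graph of `M` for the set `Q` of binary relation symbols. Its vertices are the elements
of `M` and the pairs `(E, c)` with `E ∈ Q` and `c` a set of elements of `M`. Two elements are
adjacent as in the Gaifman graph of the symbols outside `Q`; the element `x` and the pair `(E, c)`
are adjacent when `c = {y | E(x, y)}`, that is when `c` is the `E`-class of `x`. -/
def classGraph (L : Language.{u, u}) (Q : Set (L.Relations 2)) (M : Type u) [L.Structure M] :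
    SimpleGraph (M ⊕ Q × Set M) where
  Adj a b := match a, b with
    | Sum.inl x, Sum.inl y => (restGraph L Q M).Adj x y
    | Sum.inl x, Sum.inr p => p.2 = {y | Language.Structure.RelMap p.1.1 ![x, y]}
    | Sum.inr p, Sum.inl x => p.2 = {y | Language.Structure.RelMap p.1.1 ![x, y]}
    | Sum.inr _, Sum.inr _ => False
  symm := ⟨by
    rintro (x | p) (y | q) h
    · exact SimpleGraph.Adj.symm (G := restGraph L Q M) h
    · exact h
    · exact h
    · exact h⟩
  loopless := ⟨by
    rintro (x | p) h
    · exact SimpleGraph.Adj.ne (G := restGraph L Q M) h rfl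
    · exact h⟩

/-- In the structure `M` every symbol in `Q` is an equivalence relation, any two symbols in `Q` are
comparable by inclusion, and any two elements which are adjacent in the Gaifman graph of the symbols
outside `Q` are equivalent for every symbol in `Q`. -/
def IsLaminar {L : Language.{u, u}} (Q : Set (L.Relations 2)) (M : Type u) [L.Structure M] :
    Prop :=
  (∀ E ∈ Q, Equivalence fun x y : M => Language.Structure.RelMap E ![x, y]) ∧
  (∀ E ∈ Q, ∀ E' ∈ Q,
    (∀ x y : M, Language.Structure.RelMap E ![x, y] → Language.Structure.RelMap E' ![x, y]) ∨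
    ∀ x y : M, Language.Structure.RelMap E' ![x, y] → Language.Structure.RelMap E ![x, y]) ∧
  ∀ x y : M, (restGraph L Q M).Adj x y → ∀ E ∈ Q, Language.Structure.RelMap E ![x, y]

/-- The structure `M` is a nest of equivalence relations: it has only constants, propositional
symbols, unary relation symbols and binary relation symbols; every binary relation symbol is an
equivalence relation on `M`, and any two of them are comparable by inclusion in `M`. -/
def IsNest (L : Language.{u, u}) (M : Type u) [L.Structure M] : Prop :=
  (∀ n, 1 ≤ n → IsEmpty (L.Functions n)) ∧ (∀ n, 3 ≤ n → IsEmpty (L.Relations n)) ∧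
    (∀ E : L.Relations 2, Equivalence fun x y : M => Language.Structure.RelMap E ![x, y]) ∧
    ∀ E E' : L.Relations 2,
      (∀ x y : M, Language.Structure.RelMap E ![x, y] → Language.Structure.RelMap E' ![x, y]) ∨
      ∀ x y : M, Language.Structure.RelMap E' ![x, y] → Language.Structure.RelMap E ![x, y]

end Vale.Agent.P307.H67
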