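import Vale.Agent.P307.H67.Chain

universe u

namespace Vale.Agent.P307.H67

open FirstOrder Cardinal Set Language Structure

/-- two triples satisfy the same binary relations -/
def Sim (L : Language.{u, u}) {M N : Type u} [L.Structure M] [L.Structure N] (v : Fin 3 → N)
    (w : Fin 3 → M) : Prop :=
  ∀ (E : L.Relations 2) (i j : Fin 3), RelMap E ![v i, v j] ↔ RelMap E ![w i, w j]

/-- A large member has copies in every cardinality, in which a given triple is named. -/
theorem exists_copy {L : Language.{u, u}} {K : AEC L} {l κ : Cardinal.{u}} (hK : K.IsLS l)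
    (hlκ : l ≤ κ) {M : Type u} [L.Structure M] (hM : K.mem M) (hbig : hanf (2 ^ l) ≤ #M)
    (c : Fin 3 → M) :
    ∃ (N : Type u) (_ : L.Structure N), K.mem N ∧ #N = κ ∧ (∃ c' : Fin 3 → N, Sim L c' c) ∧
      ∀ v : Fin 3 → N, ∃ w : Fin 3 → M, Sim L v w := by
  classical
  have hl := hK.1
  have hκ0 : ℵ₀ ≤ κ := hl.trans hlκ
  let X : Type u := (#M).ord.ToType
  have hX : #X = #M := by simp [X]
  obtain ⟨eq⟩ := Cardinal.eq.1 hX
  let x : X → M := eq
  have hxinj : Function.Injective x := eq.injective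
  have hXbig : hanf (2 ^ l) ≤ #X := by
    rw [hX]
    exact hbig
  have hMne : Nonempty M := ⟨c 0⟩
  let Λ : Type u := l.out
  have hΛ : #Λ = l := mk_out l
  obtain ⟨fn, hfn⟩ := Gr.exists_skolem hK hM (fun _ => range c)
    (fun _ => (Set.finite_range c).lt_aleph0.le.trans hl) hΛ.symm.le
  let L₁ : Language.{u, u} := L.sum (Gr.LX Λ PEmpty.{u + 1})
  let φ : L →ᴸ L₁ := LHom.sumInl
  let strX : (Gr.LX Λ PEmpty.{u + 1}).Structure M := Gr.lxStr fn (fun _ h _ => h.elim)
  have hL₁ : L₁.card ≤ l := Gr.card_LX_le hl hK.2.1 hΛ.le (by simp)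
  have hcl0 : ∀ S : L₁.Substructure M, (∃ S' : L.Substructure M, K.le S' ∧ (S' : Set M) = S) ∧
      ∀ F : Finset M, (F : Set M) ⊆ S → range c ⊆ (S : Set M) := fun S =>
    hfn S fun n ξ v hv => S.fun_mem (Sum.inr ξ : L₁.Functions n) v hv
  have hcl1 : Gr.Cl1 K φ M := by
    intro S
    obtain ⟨S', h1, h2⟩ := (hcl0 S).1
    have h3 : φ.substructureReduct S = S' := SetLike.coe_injective h2.symm
    rw [h3]
    exact h1
  -- closed terms for the triple
  have hterm : ∀ k : Fin 3, ∃ t : L₁.Term (Fin 0), ∀ y : Fin 0 → M, t.realize y = c k := by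
    intro k
    have h1 : c k ∈ Substructure.closure L₁ (range (fun i : PEmpty.{u + 1} => (i.elim : M))) :=
      (hcl0 (Substructure.closure L₁ (range (fun i : PEmpty.{u + 1} => (i.elim : M))))).2 ∅
        (by simp) ⟨k, rfl⟩
    obtain ⟨t, ht⟩ := Gr.mem_closure_range.1 h1
    refine ⟨t.relabel (fun i : PEmpty.{u + 1} => i.elim), fun y => ?_⟩
    rw [Term.realize_relabel, ← ht]
    congr 1
    funext i
    exact i.elim
  choose t ht using hterm
  obtain ⟨a, ha1, ha2⟩ := exists_template (L := L₁) hl hL₁ x hXbig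
  have hta : IsTemplate L₁ (fun n k => x (a n k)) := fun k n g hg => ha2 k n g hg
  have hne01 : x (a 2 0) ≠ x (a 2 1) := by
    intro h
    exact absurd (hxinj h) ((ha1 2) (by decide : (0 : Fin 2) < 1)).ne
  let I : Type u := κ.ord.ToType
  have hI : #I = κ := by simp [I]
  obtain ⟨N, strN, e, he, htop⟩ := exists_isEM hta I
  let strN' : L.Structure N := φ.reduct N
  have hloc := Gr.isEM_local he htop
  have hNK : K.mem N ∧ Gr.Cl1 K φ N := hcl1.transfer fun A => by
    obtain ⟨ρ⟩ := hloc A
    exact ⟨ρ, ρ.injective⟩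
  have hinj : Function.Injective e := by
    have h1 : ∀ w w' : I, w < w' → e w ≠ e w' := by
      intro w w' hw h
      have hm : StrictMono (![w, w'] : Fin 2 → I) := by
        rw [Fin.strictMono_iff_lt_succ]
        intro i
        have : i = 0 := Subsingleton.elim _ _
        subst this
        exact hw
      have hat : AtEq L₁ (fun k => e ((![w, w'] : Fin 2 → I) k)) (fun k => x (a 2 k)) :=
        he 2 _ hm
      have h2 := (hat.1 (Term.var 0) (Term.var 1)).1 h
      exact hne01 h2
    intro w w' h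
    rcases lt_trichotomy w w' with hw | hw | hw
    · exact absurd h (h1 w w' hw)
    · exact hw
    · exact absurd h.symm (h1 w' w hw)
  have hNκ : #N = κ := by
    apply le_antisymm
    · have h1 : ∀ x : N, ∃ t : L₁.Term I, t.realize e = x := fun x => by
        rw [← Gr.mem_closure_range, htop]
        trivial
      choose s hs using h1
      have h2 : #N ≤ #(L₁.Term I) := mk_le_of_injective (f := s) fun x y hxy => by
        rw [← hs x, ← hs y, hxy]
      exact h2.trans (mk_term_le hκ0 (hL₁.trans hlκ) I hI.le)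
    · rw [← hI]
      exact mk_le_of_injective hinj
  have hvec : ∀ {T : Type u} (f : Fin 3 → T) (i j : Fin 3),
      (fun k => f ((![i, j] : Fin 2 → Fin 3) k)) = ![f i, f j] := by
    intro T f i j
    funext k
    refine Fin.cases rfl (fun k => ?_) k
    refine Fin.cases rfl (fun k => k.elim0) k
  refine ⟨N, strN', hNK.1, hNκ, ?_, ?_⟩
  · -- the named triple
    have hm0 : StrictMono (fun i : Fin 0 => (i.elim0 : I)) := fun i => i.elim0
    have hat := he 0 _ hm0
    refine ⟨fun k => (t k).realize (fun i : Fin 0 => e (i.elim0 : I)), fun E i j => ?_⟩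
    have h1 := hat.2 2 (φ.onRelation E) (fun k => t ((![i, j] : Fin 2 → Fin 3) k))
    rw [LHom.map_onRelation, LHom.map_onRelation] at h1
    rw [hvec (fun k => (t k).realize (fun i : Fin 0 => e (i.elim0 : I))) i j,
      hvec (fun k => (t k).realize (fun k => x (a 0 k))) i j] at h1
    rw [ht, ht] at h1
    exact h1
  · intro v
    let A : Finset N := Finset.univ.image v
    obtain ⟨ρ⟩ := hloc A
    have hv : ∀ k, v k ∈ Substructure.closure L₁ (A : Set N) := fun k =>
      Substructure.subset_closure (Finset.mem_coe.2 (Finset.mem_image_of_mem v (Finset.mem_univ k)))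
    refine ⟨fun k => ρ ⟨v k, hv k⟩, fun E i j => ?_⟩
    let u : Fin 2 → Substructure.closure L₁ (A : Set N) := fun k =>
      ⟨v ((![i, j] : Fin 2 → Fin 3) k), hv _⟩
    have h1 := ρ.map_rel (φ.onRelation E) u
    have h2 : RelMap (φ.onRelation E) (ρ ∘ u) ↔ RelMap E (ρ ∘ u) := by
      rw [LHom.map_onRelation]
    have h3 : RelMap (φ.onRelation E) u ↔ RelMap E (fun k => (u k : N)) := by
      have h4 : RelMap (φ.onRelation E) (fun k => (u k : N)) ↔ RelMap E (fun k => (u k : N)) := by
        rw [LHom.map_onRelation]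
      exact h4
    have e1 : (ρ ∘ u) = ![ρ ⟨v i, hv i⟩, ρ ⟨v j, hv j⟩] :=
      hvec (fun k => ρ ⟨v k, hv k⟩) i j
    have e2 : (fun k => (u k : N)) = ![v i, v j] := hvec v i j
    rw [h2, h3, e1, e2] at h1
    exact h1.symm

end Vale.Agent.P307.H67
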