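import Vale.Agent.P307.Bdl.B1

universe u

namespace Vale.Agent.P307.H67

open FirstOrder Cardinal Set

/-- a linear order with a set of size `l` which separates more than `l` points -/
theorem exists_many_cuts {l : Cardinal.{u}} (hl : ℵ₀ ≤ l) :
    ∃ (J : Type u) (_ : LinearOrder J) (D Y : Set J), #J ≤ 2 ^ l ∧ #D ≤ l ∧ l < #Y ∧
      (∀ y ∈ Y, y ∉ D) ∧ ∀ y ∈ Y, ∀ y' ∈ Y, y < y' → ∃ d ∈ D, y < d ∧ d < y' := by
  classical
  have hne : {c : Cardinal.{u} | l < 2 ^ c}.Nonempty := ⟨l, cantor l⟩
  obtain ⟨χ, h1, h2, h3⟩ : ∃ χ : Cardinal.{u}, l < 2 ^ χ ∧ χ ≤ l ∧ ∀ c < χ, 2 ^ c ≤ l :=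
    ⟨sInf {c : Cardinal.{u} | l < 2 ^ c}, csInf_mem hne, csInf_le' (cantor l),
      fun c hc => not_lt.1 fun h => (notMem_of_lt_csInf' hc) h⟩
  let ι : Type u := χ.ord.ToType
  have hι : #ι = χ := by simp [ι]
  have hIio : ∀ i : ι, #(Iio i) < χ := by
    intro i
    have h4 := mk_Iio_lt i (by rw [hι]; simp [ι])
    rwa [hι] at h4
  have hχ : ℵ₀ ≤ χ := by
    by_contra hcon
    rw [not_le] at hcon
    exact absurd (h1.trans (power_lt_aleph0 (ofNat_lt_aleph0 (n := 2)) hcon)) (not_lt.2 hl)
  have hIic : ∀ i : ι, #(Iic i) < χ := by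
    intro i
    have h4 : (Iic i : Set ι) ⊆ insert i (Iio i) := by
      intro j hj
      rcases (le_iff_eq_or_lt.1 (mem_Iic.1 hj)) with h | h
      · exact Or.inl h
      · exact Or.inr h
    refine (mk_le_mk_of_subset h4).trans_lt (mk_insert_le.trans_lt ?_)
    exact add_lt_of_lt hχ (hIio i) (one_lt_aleph0.trans_le hχ)
  let J : Type u := Lex (ι → Bool)
  have hJ : #J = 2 ^ χ := by
    change #(ι → Bool) = 2 ^ χ
    rw [← hι]
    simp
  let D : Set J := {f | ∃ i : ι, ∀ j, i < j → (ofLex f) j = false}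
  have hD : #D ≤ l := by
    let g : D → Σ i : ι, (Iic i → Bool) := fun f => ⟨f.2.choose, fun j => (ofLex f.1) j.1⟩
    have hg : Function.Injective g := by
      intro f f' hff
      have e1 : f.2.choose = f'.2.choose := congrArg Sigma.fst hff
      have s1 := f.2.choose_spec
      have s2 := f'.2.choose_spec
      apply Subtype.ext
      funext j
      by_cases hj : f.2.choose < j
      · have a1 := s1 j hj
        have a2 := s2 j (e1 ▸ hj)
        exact a1.trans a2.symm
      · have hlt : j ≤ f.2.choose := not_lt.1 hj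
        have key : ∀ (i i' : ι) (p : Iic i → Bool) (p' : Iic i' → Bool),
            (⟨i, p⟩ : Σ i : ι, (Iic i → Bool)) = ⟨i', p'⟩ → ∀ (h : j ≤ i) (h' : j ≤ i'),
            p ⟨j, h⟩ = p' ⟨j, h'⟩ := by
          intro i i' p p' hpp h h'
          cases hpp
          rfl
        exact key _ _ _ _ hff hlt (e1 ▸ hlt)
    refine (mk_le_of_injective hg).trans ?_
    rw [mk_sigma]
    refine (sum_le_lift_mk_mul_iSup _).trans ?_
    refine (mul_le_mul' (b := l) (d := l) ?_ (ciSup_le' fun i => ?_)).trans (mul_eq_self hl).le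
    · rw [lift_id, hι]
      exact h2
    · have : #(Iic i → Bool) = 2 ^ #(Iic i) := by simp
      rw [this]
      exact h3 _ (hIic i)
  refine ⟨J, inferInstance, D, Dᶜ, ?_, hD, ?_, fun y hy => hy, ?_⟩
  · rw [hJ]
    exact power_le_power_left two_ne_zero h2
  · by_contra hcon
    rw [not_lt] at hcon
    have h4 : #J ≤ l := by
      rw [← mk_sum_compl D]
      exact add_le_of_le hl hD hcon
    rw [hJ] at h4
    exact absurd h4 (not_le.2 h1)
  · intro y hy y' hy' hlt
    obtain ⟨i, hi1, hi2⟩ : ∃ i : ι, (∀ j, j < i → (ofLex y) j = (ofLex y') j) ∧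
        (ofLex y) i < (ofLex y') i := hlt
    let d : J := toLex fun j => if j ≤ i then (ofLex y') j else false
    have hd : d ∈ D := ⟨i, fun j hj => if_neg (not_le.2 hj)⟩
    have h5 : y < d := by
      refine ⟨i, fun j hj => ?_, ?_⟩
      · change (ofLex y) j = if j ≤ i then (ofLex y') j else false
        rw [if_pos hj.le]
        exact hi1 j hj
      · change (ofLex y) i < if i ≤ i then (ofLex y') i else false
        rw [if_pos le_rfl]
        exact hi2
    have h6 : d ≤ y' := by
      have h7 : (fun j => if j ≤ i then (ofLex y') j else false) ≤ ofLex y' := by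
        intro j
        change (if j ≤ i then (ofLex y') j else false) ≤ (ofLex y') j
        split_ifs
        · exact le_rfl
        · exact Bool.false_le _
      exact Pi.toLex_monotone h7
    refine ⟨d, hd, h5, lt_of_le_of_ne h6 ?_⟩
    intro h8
    rw [h8] at hd
    exact hy' hd

end Vale.Agent.P307.H67
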