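import Vale.Agent.P307.H67.ClassDefs
import Vale.Agent.P307.H67.Main

universe u

namespace Vale.Agent.P307.H67

open FirstOrder Cardinal Language Set

section

variable {L : Language.{u, u}} [L.IsRelational] (Q : Set (L.Relations 2))

/-- the points of a decorated structure -/
def Pt (N : Type u) [L.Structure N] : Set N :=
  {a | ∀ E ∈ Q, ∀ b, ¬ Structure.RelMap E ![b, a]}

/-- the decoded structure -/
def D (N : Type u) [L.Structure N] : Type u := {a : N // a ∈ Pt Q N}

instance dStr {N : Type u} [L.Structure N] : L.Structure (D Q N) where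
  funMap := fun f _ => isEmptyElim f
  RelMap := fun {n} R v => (Outside Q R ∧ Structure.RelMap R (fun k => (v k).1)) ∨
    ∃ E ∈ Q, (⟨n, R⟩ : Σ k, L.Relations k) = ⟨2, E⟩ ∧
      ∃ b : N, ∀ k, Structure.RelMap E ![(v k).1, b]

/-- the structure is decorated with the classes of the symbols in `Q` -/
def Good (N : Type u) [L.Structure N] : Prop :=
  (∀ E ∈ Q, ∀ a b : N, Structure.RelMap E ![a, b] → a ∈ Pt Q N) ∧
  (∀ E ∈ Q, ∀ a ∈ Pt Q N, ∃ b : N, Structure.RelMap E ![a, b]) ∧
  (∀ E ∈ Q, ∀ a b b' : N, Structure.RelMap E ![a, b] → Structure.RelMap E ![a, b'] → b = b') ∧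
  (∀ E ∈ Q, ∀ E' ∈ Q, ∀ a a' b : N, Structure.RelMap E ![a, b] → Structure.RelMap E' ![a', b] →
    E = E') ∧
  ∀ (n : ℕ) (R : L.Relations n) (v : Fin n → N), Outside Q R → Structure.RelMap R v →
    ∀ k, v k ∈ Pt Q N

/-- closed substructures -/
def Clo {N : Type u} [L.Structure N] (S : L.Substructure N) : Prop :=
  (∀ b ∈ S, b ∉ Pt Q N → ∃ E ∈ Q, ∃ a ∈ S, Structure.RelMap E ![a, b]) ∧
  ∀ a ∈ S, a ∈ Pt Q N → ∀ E ∈ Q, ∀ b, Structure.RelMap E ![a, b] → b ∈ S

/-- the points of a substructure -/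
def ptS {N : Type u} [L.Structure N] (S : L.Substructure N) : L.Substructure (D Q N) where
  carrier := {x | x.1 ∈ S}
  fun_mem := fun f => isEmptyElim f

variable {Q}

omit [L.IsRelational] in
lemma outside_or {n : ℕ} (R : L.Relations n) :
    Outside Q R ∨ ∃ E ∈ Q, (⟨n, R⟩ : Σ k, L.Relations k) = ⟨2, E⟩ := by
  by_cases h : Outside Q R
  · exact Or.inl h
  · right
    unfold Outside at h
    push Not at h
    exact h

omit [L.IsRelational] in
lemma not_outside {E : L.Relations 2} (hE : E ∈ Q) : ¬ Outside Q E := fun h => h E hE rfl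

section

variable {N : Type u} [L.Structure N]

lemma relD_out {n : ℕ} {R : L.Relations n} (h : Outside Q R) (v : Fin n → D Q N) :
    Structure.RelMap R v ↔ Structure.RelMap R (fun k => (v k).1) := by
  constructor
  · rintro (⟨-, h1⟩ | ⟨E, hE, h1, -⟩)
    · exact h1
    · exact absurd h1 (h E hE)
  · intro h1
    exact Or.inl ⟨h, h1⟩

lemma relD_in {E : L.Relations 2} (hE : E ∈ Q) (v : Fin 2 → D Q N) :
    Structure.RelMap E v ↔ ∃ b : N, ∀ k, Structure.RelMap E ![(v k).1, b] := by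
  constructor
  · rintro (⟨h1, -⟩ | ⟨E', hE', h1, h2⟩)
    · exact absurd h1 (not_outside hE)
    · cases h1
      exact h2
  · intro h1
    exact Or.inr ⟨E, hE, rfl, h1⟩

lemma relD_in' {E : L.Relations 2} (hE : E ∈ Q) (x y : D Q N) :
    Structure.RelMap E ![x, y] ↔
      ∃ b : N, Structure.RelMap E ![x.1, b] ∧ Structure.RelMap E ![y.1, b] := by
  rw [relD_in hE]
  refine exists_congr fun b => ?_
  constructor
  · intro h
    exact ⟨h 0, h 1⟩
  · rintro ⟨h1, h2⟩ k
    refine Fin.cases h1 (fun k => ?_) k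
    refine Fin.cases h2 (fun k => k.elim0) k

lemma mem_ptS {S : L.Substructure N} {x : D Q N} : x ∈ ptS Q S ↔ x.1 ∈ S := Iff.rfl

end

/-- isomorphisms from the two kinds of symbols -/
def mkIso {A B : Type u} [L.Structure A] [L.Structure B] (e : A ≃ B)
    (h1 : ∀ (n : ℕ) (R : L.Relations n), Outside Q R → ∀ v : Fin n → A,
      Structure.RelMap R (e ∘ v) ↔ Structure.RelMap R v)
    (h2 : ∀ E ∈ Q, ∀ v : Fin 2 → A, Structure.RelMap E (e ∘ v) ↔ Structure.RelMap E v) :
    A ≃[L] B where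
  toEquiv := e
  map_fun' := fun f => isEmptyElim f
  map_rel' := by
    intro n R v
    rcases outside_or (Q := Q) R with h | ⟨E, hE, h⟩
    · exact h1 n R h v
    · cases h
      exact h2 E hE v

lemma comp_vec {A B : Type u} (e : A → B) (a b : A) : e ∘ ![a, b] = ![e a, e b] := by
  funext k
  refine Fin.cases rfl (fun k => ?_) k
  refine Fin.cases rfl (fun k => k.elim0) k

omit [L.IsRelational] in
lemma map_rel2 {A B : Type u} [L.Structure A] [L.Structure B] (e : A ≃[L] B) (E : L.Relations 2)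
    (a b : A) : Structure.RelMap E ![e a, e b] ↔ Structure.RelMap E ![a, b] := by
  rw [← comp_vec]
  exact e.map_rel E _

section

variable {N N' : Type u} [L.Structure N] [L.Structure N'] (e : N ≃[L] N')

include e

lemma pt_iso (a : N) : e a ∈ Pt Q N' ↔ a ∈ Pt Q N := by
  constructor
  · intro h E hE b hb
    exact h E hE (e b) ((map_rel2 e E b a).2 hb)
  · intro h E hE b hb
    refine h E hE (e.symm b) ?_
    rw [← map_rel2 e, e.apply_symm_apply]
    exact hb

lemma good_iso (h : Good Q N) : Good Q N' := by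
  obtain ⟨h1, h2, h3, h4, h5⟩ := h
  have key : ∀ (E : L.Relations 2) (a b : N'), Structure.RelMap E ![a, b] →
      Structure.RelMap E ![e.symm a, e.symm b] := fun E a b h => (map_rel2 e.symm E a b).2 h
  have hpt : ∀ a : N', e.symm a ∈ Pt Q N ↔ a ∈ Pt Q N' := fun a => pt_iso e.symm a
  refine ⟨fun E hE a b h => (hpt a).1 (h1 E hE _ _ (key E a b h)), fun E hE a ha => ?_,
    fun E hE a b b' h h' => e.symm.injective (h3 E hE _ _ _ (key E a b h) (key E a b' h')),
    fun E hE E' hE' a a' b h h' => h4 E hE E' hE' _ _ _ (key E a b h) (key E' a' b h'),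
    fun n R v hR hv k => (hpt _).1 (h5 n R (e.symm ∘ v) hR ((e.symm.map_rel R v).2 hv) k)⟩
  obtain ⟨b, hb⟩ := h2 E hE _ ((hpt a).2 ha)
  refine ⟨e b, ?_⟩
  have := (map_rel2 e E _ _).2 hb
  rw [e.apply_symm_apply] at this
  exact this

end

/-- decoding is functorial for isomorphisms -/
def dIso {N N' : Type u} [L.Structure N] [L.Structure N'] (e : N ≃[L] N') :
    D Q N ≃[L] D Q N' :=
  mkIso (Q := Q) (e.toEquiv.subtypeEquiv fun a => (pt_iso e a).symm)
    (by
      intro n R hR v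
      rw [relD_out hR, relD_out hR, ← e.map_rel R]
      exact Iff.rfl)
    (by
      intro E hE v
      rw [relD_in hE, relD_in hE]
      constructor
      · rintro ⟨b, hb⟩
        refine ⟨e.symm b, fun k => ?_⟩
        rw [← map_rel2 e, e.apply_symm_apply]
        exact hb k
      · rintro ⟨b, hb⟩
        exact ⟨e b, fun k => (map_rel2 e E _ _).2 (hb k)⟩)

lemma dIso_val {N N' : Type u} [L.Structure N] [L.Structure N'] (e : N ≃[L] N') (x : D Q N) :
    (dIso e x).1 = e x.1 := rfl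

section

variable {N : Type u} [L.Structure N] {S : L.Substructure N}

omit [L.IsRelational] in
lemma sub_rel {n : ℕ} (R : L.Relations n) (v : Fin n → S) :
    Structure.RelMap R v ↔ Structure.RelMap R (fun k => (v k : N)) := Iff.rfl

omit [L.IsRelational] in
lemma sub_rel2 (E : L.Relations 2) (a b : S) :
    Structure.RelMap E ![a, b] ↔ Structure.RelMap E ![(a : N), (b : N)] := by
  rw [sub_rel, ← comp_vec (Subtype.val : S → N)]
  exact Iff.rfl

lemma pt_sub (hS : Clo Q S) (a : S) : a ∈ Pt Q S ↔ (a : N) ∈ Pt Q N := by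
  constructor
  · intro h
    by_contra hcon
    obtain ⟨E, hE, c, hc, hr⟩ := hS.1 a a.2 hcon
    exact h E hE ⟨c, hc⟩ ((sub_rel2 E _ _).2 hr)
  · intro h E hE b hb
    exact h E hE b ((sub_rel2 E _ _).1 hb)

lemma good_sub (hN : Good Q N) (hS : Clo Q S) : Good Q S := by
  obtain ⟨h1, h2, h3, h4, h5⟩ := hN
  refine ⟨fun E hE a b h => (pt_sub hS a).2 (h1 E hE _ _ ((sub_rel2 E a b).1 h)),
    fun E hE a ha => ?_,
    fun E hE a b b' h h' => Subtype.ext (h3 E hE _ _ _ ((sub_rel2 E a b).1 h)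
      ((sub_rel2 E a b').1 h')),
    fun E hE E' hE' a a' b h h' => h4 E hE E' hE' _ _ _ ((sub_rel2 E a b).1 h)
      ((sub_rel2 E' a' b).1 h'),
    fun n R v hR hv k => (pt_sub hS _).2 (h5 n R _ hR ((sub_rel R v).1 hv) k)⟩
  have ha' := (pt_sub hS a).1 ha
  obtain ⟨b, hb⟩ := h2 E hE _ ha'
  exact ⟨⟨b, hS.2 a a.2 ha' E hE b hb⟩, (sub_rel2 E _ _).2 hb⟩

/-- the points of a closed substructure -/
def dSub (hS : Clo Q S) : D Q S ≃[L] ptS Q S :=
  mkIso (Q := Q)
    { toFun := fun x => ⟨⟨x.1.1, (pt_sub hS x.1).1 x.2⟩, x.1.2⟩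
      invFun := fun x => ⟨⟨x.1.1, x.2⟩, (pt_sub hS ⟨x.1.1, x.2⟩).2 x.1.2⟩
      left_inv := fun _ => rfl
      right_inv := fun _ => rfl }
    (by
      intro n R hR v
      rw [relD_out hR, sub_rel, sub_rel, relD_out hR]
      exact Iff.rfl)
    (by
      intro E hE v
      rw [relD_in hE, sub_rel, relD_in hE]
      constructor
      · rintro ⟨b, hb⟩
        refine ⟨⟨b, ?_⟩, fun k => ?_⟩
        · exact hS.2 (v 0).1.1 (v 0).1.2 ((pt_sub hS _).1 (v 0).2) E hE b (hb 0)
        · rw [sub_rel2]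
          exact hb k
      · rintro ⟨b, hb⟩
        refine ⟨b.1, fun k => ?_⟩
        exact (sub_rel2 E _ _).1 (hb k))

lemma dSub_val (hS : Clo Q S) (x : D Q S) : (dSub hS x).1.1 = x.1.1 := rfl

end

end

end Vale.Agent.P307.H67
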