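import Vale.Agent.P307.Gr.Gaifman

universe u

namespace Vale.Agent.P307.H67

open FirstOrder Cardinal

/-- The Gaifman graph of a structure in an arbitrary vocabulary: two distinct elements are adjacent
when they occur together in a tuple satisfying some relation symbol, or in a tuple `(f v, v)` for
some function symbol `f`. -/
def gaifmanF (L : Language.{u, u}) (M : Type u) [L.Structure M] : SimpleGraph M where
  Adj x y := x ≠ y ∧
    ((∃ (n : ℕ) (R : L.Relations n) (v : Fin n → M),
      Language.Structure.RelMap R v ∧ x ∈ Set.range v ∧ y ∈ Set.range v) ∨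
    ∃ (n : ℕ) (f : L.Functions n) (v : Fin n → M),
      (x = Language.Structure.funMap f v ∨ x ∈ Set.range v) ∧
      (y = Language.Structure.funMap f v ∨ y ∈ Set.range v))
  symm := ⟨by
    rintro x y ⟨h, h' | h'⟩
    · obtain ⟨n, R, v, h1, h2, h3⟩ := h'
      exact ⟨h.symm, Or.inl ⟨n, R, v, h1, h3, h2⟩⟩
    · obtain ⟨n, f, v, h2, h3⟩ := h'
      exact ⟨h.symm, Or.inr ⟨n, f, v, h3, h2⟩⟩⟩
  loopless := ⟨fun _ h => h.1 rfl⟩

/-- The vocabulary `L` has at most one function symbol of arity one, and otherwise only constants,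
propositional symbols and unary relation symbols. -/
def OneUnaryFunction (L : Language.{u, u}) : Prop :=
  Subsingleton (L.Functions 1) ∧ (∀ n, 2 ≤ n → IsEmpty (L.Functions n)) ∧
    ∀ n, 2 ≤ n → IsEmpty (L.Relations n)

end Vale.Agent.P307.H67
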