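import Vale.Agent.P307.H67.Im

universe u

namespace Vale.Agent.P307.H67

open FirstOrder Cardinal Language Set

section

variable {L : Language.{u, u}} [L.IsRelational] (Q : Set (L.Relations 2))

/-- the classes of a structure -/
def ClT (M : Type u) [L.Structure M] : Type u :=
  {p : Q × Set M // ∃ x, p.2 = {y | Structure.RelMap p.1.1 ![x, y]}}

variable {Q} in
/-- the class of an element -/
def cl {M : Type u} [L.Structure M] {E : L.Relations 2} (hE : E ∈ Q) (x : M) : ClT Q M :=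
  ⟨(⟨E, hE⟩, {y | Structure.RelMap E ![x, y]}), x, rfl⟩

/-- the decorated structure -/
def TT (M : Type u) [L.Structure M] : Type u := M ⊕ ClT Q M

instance ttStr {M : Type u} [L.Structure M] : L.Structure (TT Q M) where
  funMap := fun f _ => isEmptyElim f
  RelMap := fun {n} R v =>
    (Outside Q R ∧ ∃ w : Fin n → M, v = (fun k => Sum.inl (w k)) ∧ Structure.RelMap R w) ∨
    ∃ (E : L.Relations 2) (hE : E ∈ Q), (⟨n, R⟩ : Σ k, L.Relations k) = ⟨2, E⟩ ∧
      ∃ x : M, ∀ k : Fin n, v k = if k.val = 0 then Sum.inl x else Sum.inr (cl hE x)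

variable {Q}

section

variable {M : Type u} [L.Structure M]

lemma relTT_out {n : ℕ} {R : L.Relations n} (h : Outside Q R) (v : Fin n → TT Q M) :
    Structure.RelMap R v ↔ ∃ w : Fin n → M, v = (fun k => Sum.inl (w k)) ∧
      Structure.RelMap R w := by
  constructor
  · rintro (⟨-, h1⟩ | ⟨E, hE, h1, -⟩)
    · exact h1
    · exact absurd h1 (h E hE)
  · intro h1
    exact Or.inl ⟨h, h1⟩

lemma relTT_in {E : L.Relations 2} (hE : E ∈ Q) (a b : TT Q M) :
    Structure.RelMap E ![a, b] ↔ ∃ x : M, a = Sum.inl x ∧ b = Sum.inr (cl hE x) := by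
  constructor
  · rintro (⟨h1, -⟩ | ⟨E', hE', h1, x, h2⟩)
    · exact absurd h1 (not_outside hE)
    · cases h1
      exact ⟨x, h2 0, h2 1⟩
  · rintro ⟨x, rfl, rfl⟩
    refine Or.inr ⟨E, hE, rfl, x, fun k => ?_⟩
    refine Fin.cases rfl (fun k => ?_) k
    refine Fin.cases rfl (fun k => k.elim0) k

lemma pt_TT (a : TT Q M) : a ∈ Pt Q (TT Q M) ↔ ∃ x : M, a = Sum.inl x := by
  constructor
  · intro h
    match a, h with
    | Sum.inl x, _ => exact ⟨x, rfl⟩
    | Sum.inr ⟨⟨⟨E, hE⟩, c⟩, x, hx⟩, h =>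
      exfalso
      refine h E hE (Sum.inl x) ((relTT_in hE _ _).2 ⟨x, rfl, ?_⟩)
      dsimp only at hx
      subst hx
      rfl
  · rintro ⟨x, rfl⟩ E hE b hb
    obtain ⟨y, -, h⟩ := (relTT_in hE _ _).1 hb
    cases h

lemma good_TT : Good Q (TT Q M) := by
  refine ⟨?_, ?_, ?_, ?_, ?_⟩
  · intro E hE a b h
    obtain ⟨x, rfl, -⟩ := (relTT_in hE _ _).1 h
    exact (pt_TT _).2 ⟨x, rfl⟩
  · intro E hE a ha
    obtain ⟨x, rfl⟩ := (pt_TT _).1 ha
    exact ⟨Sum.inr (cl hE x), (relTT_in hE _ _).2 ⟨x, rfl, rfl⟩⟩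
  · intro E hE a b b' h h'
    obtain ⟨x, rfl, rfl⟩ := (relTT_in hE _ _).1 h
    obtain ⟨y, h1, rfl⟩ := (relTT_in hE _ _).1 h'
    cases h1
    rfl
  · intro E hE E' hE' a a' b h h'
    obtain ⟨x, rfl, rfl⟩ := (relTT_in hE _ _).1 h
    obtain ⟨y, -, h1⟩ := (relTT_in hE' _ _).1 h'
    have h2 : cl hE x = cl hE' y := Sum.inr_injective h1
    have h3 := congrArg (fun p => p.1.1.1) h2
    exact h3
  · intro n R v hR hv k
    obtain ⟨w, rfl, -⟩ := (relTT_out hR _).1 hv
    exact (pt_TT _).2 ⟨w k, rfl⟩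

lemma cl_eq {E : L.Relations 2} (hE : E ∈ Q)
    (hEq : Equivalence fun x y : M => Structure.RelMap E ![x, y]) (x y : M) :
    cl hE x = cl hE y ↔ Structure.RelMap E ![x, y] := by
  constructor
  · intro h
    have h1 : ({z | Structure.RelMap E ![x, z]} : Set M) = {z | Structure.RelMap E ![y, z]} :=
      congrArg (fun p => p.1.2) h
    have h2 : y ∈ {z | Structure.RelMap E ![y, z]} := hEq.refl y
    rw [← h1] at h2
    exact h2
  · intro h
    have h1 : ({z | Structure.RelMap E ![x, z]} : Set M) = {z | Structure.RelMap E ![y, z]} := by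
      ext z
      exact ⟨fun h' => hEq.trans (hEq.symm h) h', fun h' => hEq.trans h h'⟩
    refine Subtype.ext ?_
    exact Prod.ext rfl h1

/-- decoding after decorating gives the structure back -/
noncomputable def dTT
    (hEq : ∀ E ∈ Q, Equivalence fun x y : M => Structure.RelMap E ![x, y]) :
    M ≃[L] D Q (TT Q M) :=
  mkIso (Q := Q)
    (Equiv.ofBijective (fun x : M => (⟨Sum.inl x, (pt_TT _).2 ⟨x, rfl⟩⟩ : D Q (TT Q M)))
      ⟨fun x y h => Sum.inl_injective (congrArg Subtype.val h), fun y => by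
        obtain ⟨x, hx⟩ := (pt_TT _).1 y.2
        exact ⟨x, Subtype.ext hx.symm⟩⟩)
    (by
      intro n R hR v
      rw [relD_out hR, relTT_out hR]
      constructor
      · rintro ⟨w, h1, h2⟩
        have : v = w := by
          funext k
          exact Sum.inl_injective (congrFun h1 k)
        rw [this]
        exact h2
      · intro h
        exact ⟨v, rfl, h⟩)
    (by
      intro E hE v
      have hv : v = ![v 0, v 1] := by
        funext k
        refine Fin.cases rfl (fun k => ?_) k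
        refine Fin.cases rfl (fun k => k.elim0) k
      rw [hv, comp_vec, relD_in' hE, ← cl_eq hE (hEq E hE)]
      constructor
      · rintro ⟨b, h1, h2⟩
        obtain ⟨x, hx, rfl⟩ := (relTT_in hE _ _).1 h1
        obtain ⟨y, hy, hxy⟩ := (relTT_in hE _ _).1 h2
        have hx' : v 0 = x := Sum.inl_injective hx
        have hy' : v 1 = y := Sum.inl_injective hy
        rw [hx', hy']
        exact Sum.inr_injective hxy
      · intro h
        exact ⟨Sum.inr (cl hE (v 0)), (relTT_in hE _ _).2 ⟨v 0, rfl, rfl⟩,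
          (relTT_in hE _ _).2 ⟨v 1, rfl, by rw [h]⟩⟩)

end

/-! ### isomorphisms of the decoded structures lift -/

section

variable {N N' : Type u} [L.Structure N] [L.Structure N'] (f : D Q N ≃[L] D Q N')

/-- the graph of the lifted isomorphism -/
def Gf (n : N) (n' : N') : Prop :=
  (∃ x : D Q N, x.1 = n ∧ (f x).1 = n') ∨
    ∃ E ∈ Q, ∃ x : D Q N, Structure.RelMap E ![x.1, n] ∧ Structure.RelMap E ![(f x).1, n']

lemma Gf_symm {n : N} {n' : N'} (h : Gf f n n') : Gf f.symm n' n := by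
  rcases h with ⟨x, h1, h2⟩ | ⟨E, hE, x, h1, h2⟩
  · refine Or.inl ⟨f x, h2, ?_⟩
    rw [f.symm_apply_apply]
    exact h1
  · refine Or.inr ⟨E, hE, f x, h2, ?_⟩
    rw [f.symm_apply_apply]
    exact h1

lemma Gf_symm_iff {n : N} {n' : N'} : Gf f.symm n' n ↔ Gf f n n' := by
  refine ⟨fun h => ?_, Gf_symm f⟩
  have h1 := Gf_symm f.symm h
  have h2 : f.symm.symm = f := by
    ext x
    rfl
  rw [h2] at h1
  exact h1

lemma Gf_total (hN : Good Q N) (hN' : Good Q N') (n : N) : ∃ n' : N', Gf f n n' := by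
  by_cases hn : n ∈ Pt Q N
  · exact ⟨_, Or.inl ⟨⟨n, hn⟩, rfl, rfl⟩⟩
  · simp only [Pt, mem_ofPred_eq, not_forall, not_not] at hn
    obtain ⟨E, hE, a, ha⟩ := hn
    let x : D Q N := ⟨a, hN.1 E hE a n ha⟩
    obtain ⟨b, hb⟩ := hN'.2.1 E hE (f x).1 (f x).2
    exact ⟨b, Or.inr ⟨E, hE, x, ha, hb⟩⟩

lemma rel_transport (hN' : Good Q N') {E : L.Relations 2} (hE : E ∈ Q) {x y : D Q N} {n : N}
    {n' : N'} (hx : Structure.RelMap E ![x.1, n]) (hy : Structure.RelMap E ![y.1, n])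
    (hx' : Structure.RelMap E ![(f x).1, n']) : Structure.RelMap E ![(f y).1, n'] := by
  have h1 : Structure.RelMap E ![x, y] := (relD_in' hE x y).2 ⟨n, hx, hy⟩
  have h2 := (map_rel2 f E x y).2 h1
  obtain ⟨b, hb, hb'⟩ := (relD_in' hE _ _).1 h2
  have h3 := hN'.2.2.1 E hE _ _ _ hb hx'
  rw [← h3]
  exact hb'

lemma Gf_unique (hN : Good Q N) (hN' : Good Q N') {n : N} {n' n'' : N'} (h : Gf f n n')
    (h' : Gf f n n'') : n' = n'' := by
  rcases h with ⟨x, h1, h2⟩ | ⟨E, hE, x, h1, h2⟩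
  · rcases h' with ⟨y, g1, g2⟩ | ⟨E', hE', y, g1, g2⟩
    · have : x = y := Subtype.ext (h1.trans g1.symm)
      rw [← h2, ← g2, this]
    · rw [← h1] at g1
      exact absurd g1 (x.2 E' hE' _)
  · rcases h' with ⟨y, g1, g2⟩ | ⟨E', hE', y, g1, g2⟩
    · rw [← g1] at h1
      exact absurd h1 (y.2 E hE _)
    · obtain rfl := hN.2.2.2.1 E hE E' hE' _ _ _ h1 g1
      have h3 := rel_transport f hN' hE h1 g1 h2
      exact hN'.2.2.1 E hE _ _ _ h3 g2

lemma Gf_rel (hN : Good Q N) (hN' : Good Q N') {m : ℕ} (R : L.Relations m) {v : Fin m → N}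
    {v' : Fin m → N'} (hv : ∀ k, Gf f (v k) (v' k)) (h : Structure.RelMap R v) :
    Structure.RelMap R v' := by
  rcases outside_or (Q := Q) R with hR | ⟨E, hE, hR⟩
  · have hp := hN.2.2.2.2 m R v hR h
    let w : Fin m → D Q N := fun k => ⟨v k, hp k⟩
    have h1 : Structure.RelMap R w := (relD_out hR w).2 h
    have h2 := (relD_out hR _).1 ((f.map_rel R w).2 h1)
    have h3 : v' = fun k => (f (w k)).1 := by
      funext k
      exact Gf_unique f hN hN' (hv k) (Or.inl ⟨w k, rfl, rfl⟩)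
    rw [h3]
    exact h2
  · cases hR
    have e1 : v = ![v 0, v 1] := by
      funext k
      refine Fin.cases rfl (fun k => ?_) k
      refine Fin.cases rfl (fun k => k.elim0) k
    have e2 : v' = ![v' 0, v' 1] := by
      funext k
      refine Fin.cases rfl (fun k => ?_) k
      refine Fin.cases rfl (fun k => k.elim0) k
    rw [e1] at h
    rw [e2]
    have hp0 := hN.1 E hE _ _ h
    have h4 : v' 0 = (f ⟨v 0, hp0⟩).1 := Gf_unique f hN hN' (hv 0) (Or.inl ⟨⟨v 0, hp0⟩, rfl, rfl⟩)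
    rw [h4]
    rcases hv 1 with ⟨y, g1, -⟩ | ⟨E', hE', y, g1, g2⟩
    · rw [← g1] at h
      exact absurd h (y.2 E hE _)
    · obtain rfl := hN.2.2.2.1 E hE E' hE' _ _ _ h g1
      exact rel_transport f hN' hE (x := y) (y := ⟨v 0, hp0⟩) g1 h g2

/-- the lifted isomorphism -/
noncomputable def lift (hN : Good Q N) (hN' : Good Q N') : N ≃[L] N' where
  toFun := fun n => (Gf_total f hN hN' n).choose
  invFun := fun n => (Gf_total f.symm hN' hN n).choose
  left_inv := by
    intro n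
    have h1 := (Gf_total f hN hN' n).choose_spec
    have h2 := (Gf_total f.symm hN' hN (Gf_total f hN hN' n).choose).choose_spec
    exact Gf_unique f.symm hN' hN h2 (Gf_symm f h1)
  right_inv := by
    intro n
    have h1 := (Gf_total f.symm hN' hN n).choose_spec
    have h2 := (Gf_total f hN hN' (Gf_total f.symm hN' hN n).choose).choose_spec
    exact Gf_unique f hN hN' h2 ((Gf_symm_iff f).1 h1)
  map_fun' := fun g => isEmptyElim g
  map_rel' := by
    intro m R v
    constructor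
    · intro h
      exact Gf_rel f.symm hN' hN R (fun k => Gf_symm f (Gf_total f hN hN' (v k)).choose_spec) h
    · intro h
      exact Gf_rel f hN hN' R (fun k => (Gf_total f hN hN' (v k)).choose_spec) h

end

/-! ### cardinalities -/

lemma card_good_le {N : Type u} [L.Structure N] (hN : Good Q N) :
    #N ≤ #(D Q N) + #Q * #(D Q N) := by
  classical
  have hc : ∀ n : N, n ∉ Pt Q N → ∃ p : Q × D Q N, Structure.RelMap p.1.1 ![p.2.1, n] := by
    intro n hn
    simp only [Pt, mem_ofPred_eq, not_forall, not_not] at hn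
    obtain ⟨E, hE, a, ha⟩ := hn
    exact ⟨(⟨E, hE⟩, ⟨a, hN.1 E hE a n ha⟩), ha⟩
  have h1 : #(D Q N ⊕ Q × D Q N) = #(D Q N) + #Q * #(D Q N) := by
    rw [mk_sum, mk_prod]
    simp only [lift_id]
  rw [← h1]
  refine mk_le_of_injective (f := fun n : N =>
    if h : n ∈ Pt Q N then Sum.inl ⟨n, h⟩ else Sum.inr (hc n h).choose) ?_
  intro n n' h
  by_cases hn : n ∈ Pt Q N <;> by_cases hn' : n' ∈ Pt Q N
  · simp only [hn, hn', dif_pos] at h
    exact congrArg Subtype.val (Sum.inl_injective h)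
  · simp only [hn, hn', dif_pos, dif_neg, not_false_eq_true] at h
    cases h
  · simp only [hn, hn', dif_pos, dif_neg, not_false_eq_true] at h
    cases h
  · simp only [hn, hn', dif_neg, not_false_eq_true] at h
    have h2 : (hc n hn).choose = (hc n' hn').choose := Sum.inr_injective h
    have h3 := (hc n hn).choose_spec
    have h4 := (hc n' hn').choose_spec
    rw [h2] at h3
    exact hN.2.2.1 _ (hc n' hn').choose.1.2 _ _ _ h3 h4

lemma card_D_iff {N : Type u} [L.Structure N] (hN : Good Q N) {l κ : Cardinal.{u}}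
    (hl : ℵ₀ ≤ l) (hQ : #Q ≤ l) (hκ : l < κ) : #N = κ ↔ #(D Q N) = κ := by
  have h1 : #(D Q N) ≤ #N := mk_le_of_injective (f := fun x : D Q N => x.1) Subtype.val_injective
  have h2 := card_good_le hN
  have hκ0 : ℵ₀ ≤ κ := hl.trans hκ.le
  constructor
  · intro h
    rw [h] at h1 h2
    refine le_antisymm h1 ?_
    by_contra hcon
    rw [not_le] at hcon
    have h3 : #(D Q N) + #Q * #(D Q N) < κ := by
      refine add_lt_of_lt hκ0 hcon (mul_lt_of_lt hκ0 (hQ.trans_lt hκ) hcon)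
    exact absurd h2 (not_le.2 h3)
  · intro h
    rw [h] at h1 h2
    refine le_antisymm (h2.trans ?_) h1
    exact (add_le_add le_rfl ((mul_le_mul' (hQ.trans hκ.le) le_rfl).trans
      (mul_eq_self hκ0).le)).trans (add_eq_self hκ0).le

/-! ### categoricity -/

lemma memI_TT {K : AEC L} {M : Type u} [L.Structure M] (hM : K.mem M)
    (hEq : ∀ E ∈ Q, Equivalence fun x y : M => Structure.RelMap E ![x, y]) :
    memI K Q (TT Q M) := ⟨good_TT, K.mem_iso (dTT hEq) hM⟩

lemma card_TT {M : Type u} [L.Structure M]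
    (hEq : ∀ E ∈ Q, Equivalence fun x y : M => Structure.RelMap E ![x, y]) {l κ : Cardinal.{u}}
    (hl : ℵ₀ ≤ l) (hQ : #Q ≤ l) (hκ : l < κ) (hM : #M = κ) : #(TT Q M) = κ := by
  rw [card_D_iff good_TT hl hQ hκ, ← hM]
  exact (mk_congr (dTT hEq).toEquiv).symm

lemma cat_iff {K : AEC L} {l κ : Cardinal.{u}} (hK : K.IsLS l) (hκ : l < κ)
    (hEq : ∀ (M : Type u) [L.Structure M], K.mem M →
      ∀ E ∈ Q, Equivalence fun x y : M => Structure.RelMap E ![x, y]) :
    (imAEC K Q).CategoricalIn κ ↔ K.CategoricalIn κ := by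
  have hQ : #Q ≤ l := (mk_Q_le Q).trans hK.2.1
  constructor
  · rintro ⟨⟨N, _, hN, hc⟩, huniq⟩
    refine ⟨⟨D Q N, inferInstance, hN.2, (card_D_iff hN.1 hK.1 hQ hκ).1 hc⟩, ?_⟩
    intro A B _ _ hA hB hAc hBc
    obtain ⟨e⟩ := huniq (TT Q A) (TT Q B) (memI_TT hA (hEq A hA)) (memI_TT hB (hEq B hB))
      (card_TT (hEq A hA) hK.1 hQ hκ hAc) (card_TT (hEq B hB) hK.1 hQ hκ hBc)
    exact ⟨((dTT (hEq B hB)).symm.comp (dIso e)).comp (dTT (hEq A hA))⟩
  · rintro ⟨⟨M, _, hM, hc⟩, huniq⟩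
    refine ⟨⟨TT Q M, inferInstance, memI_TT hM (hEq M hM), card_TT (hEq M hM) hK.1 hQ hκ hc⟩, ?_⟩
    intro A B _ _ hA hB hAc hBc
    obtain ⟨e⟩ := huniq (D Q A) (D Q B) hA.2 hB.2 ((card_D_iff hA.1 hK.1 hQ hκ).1 hAc)
      ((card_D_iff hB.1 hK.1 hQ hκ).1 hBc)
    exact ⟨lift e hA.1 hB.1⟩

end

end Vale.Agent.P307.H67
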