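import Vale.Agent.P307.H67.Cuts

universe u

namespace Vale.Agent.P307.H67

open FirstOrder Cardinal Set Language Structure

/-- the position of a point with respect to a set of points -/
noncomputable def cutCode {I : Type u} [LinearOrder I] [WellFoundedLT I] (B : Set I) (i : I) :
    Option B × Option B :=
  open Classical in
  (if h : ({b : B | i ≤ b.1} : Set B).Nonempty then
      some (WellFounded.min (wellFounded_lt : WellFounded ((· < ·) : B → B → Prop)) _ h) else none,
    if h : ({b : B | i < b.1} : Set B).Nonempty then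
      some (WellFounded.min (wellFounded_lt : WellFounded ((· < ·) : B → B → Prop)) _ h) else none)

lemma cutCode_fst {I : Type u} [LinearOrder I] [WellFoundedLT I] (B : Set I) (i : I) (b : B) :
    i ≤ b.1 ↔ ∃ m, (cutCode B i).1 = some m ∧ m ≤ b := by
  classical
  constructor
  · intro hb
    have h : ({b : B | i ≤ b.1} : Set B).Nonempty := ⟨b, hb⟩
    refine ⟨_, dif_pos h, ?_⟩
    exact not_lt.1 (WellFounded.not_lt_min
      (wellFounded_lt : WellFounded ((· < ·) : B → B → Prop)) {b : B | i ≤ b.1} hb)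
  · rintro ⟨m, hm, hmb⟩
    by_cases h : ({b : B | i ≤ b.1} : Set B).Nonempty
    · have h1 : (cutCode B i).1 = some (WellFounded.min
        (wellFounded_lt : WellFounded ((· < ·) : B → B → Prop)) _ h) := dif_pos h
      rw [h1] at hm
      have h2 := WellFounded.min_mem
        (wellFounded_lt : WellFounded ((· < ·) : B → B → Prop)) _ h
      rw [Option.some_inj.1 hm] at h2
      exact le_trans (show i ≤ m.1 from h2) hmb
    · have h1 : (cutCode B i).1 = none := dif_neg h
      rw [h1] at hm
      exact absurd hm (by simp)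

lemma cutCode_snd {I : Type u} [LinearOrder I] [WellFoundedLT I] (B : Set I) (i : I) (b : B) :
    i < b.1 ↔ ∃ m, (cutCode B i).2 = some m ∧ m ≤ b := by
  classical
  constructor
  · intro hb
    have h : ({b : B | i < b.1} : Set B).Nonempty := ⟨b, hb⟩
    refine ⟨_, dif_pos h, ?_⟩
    exact not_lt.1 (WellFounded.not_lt_min
      (wellFounded_lt : WellFounded ((· < ·) : B → B → Prop)) {b : B | i < b.1} hb)
  · rintro ⟨m, hm, hmb⟩
    by_cases h : ({b : B | i < b.1} : Set B).Nonempty
    · have h1 : (cutCode B i).2 = some (WellFounded.min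
        (wellFounded_lt : WellFounded ((· < ·) : B → B → Prop)) _ h) := dif_pos h
      rw [h1] at hm
      have h2 := WellFounded.min_mem
        (wellFounded_lt : WellFounded ((· < ·) : B → B → Prop)) _ h
      rw [Option.some_inj.1 hm] at h2
      exact lt_of_lt_of_le (show i < m.1 from h2) hmb
    · have h1 : (cutCode B i).2 = none := dif_neg h
      rw [h1] at hm
      exact absurd hm (by simp)

variable {L₁ : Language.{u, u}}

/-- codes of the elements of an Ehrenfeucht-Mostowski model over a set of indices -/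
abbrev ECode (L₁ : Language.{u, u}) {I : Type u} (B : Set I) : Type u :=
  Σ n : ℕ, L₁.Term (Fin n) × (Fin n → Option B × Option B)

lemma mk_ECode_le {l : Cardinal.{u}} (hl : ℵ₀ ≤ l) (hL₁ : L₁.card ≤ l) {I : Type u} (B : Set I)
    (hB : #B ≤ l) : #(ECode L₁ B) ≤ l := by
  rw [mk_sigma]
  refine (sum_le_lift_mk_mul_iSup _).trans ?_
  refine (mul_le_mul' (b := l) (d := l) ?_ (ciSup_le' fun n => ?_)).trans (mul_eq_self hl).le
  · simpa using hl
  · rw [mk_prod, lift_id, lift_id]
    refine (mul_le_mul' (b := l) (d := l) (mk_term_fin_le hl hL₁ n) ?_).trans (mul_eq_self hl).le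
    have h1 : #(Option B × Option B) ≤ l := by
      rw [mk_prod, lift_id, mk_option]
      have h2 : #B + 1 ≤ l := add_le_of_le hl hB (one_le_aleph0.trans hl)
      exact (mul_le_mul' h2 h2).trans (mul_eq_self hl).le
    have h3 : #(Fin n → Option B × Option B) = #(Option B × Option B) ^ n := by simp
    rw [h3]
    refine le_trans ?_ (power_nat_le (n := n) hl)
    exact_mod_cast power_le_power_right (c := (n : Cardinal.{u})) h1

/-- over a well-ordered set of indices there are few cuts over small sets -/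
theorem few_cuts {M N : Type u} [L₁.Structure M] [L₁.Structure N] {a : ∀ n : ℕ, Fin n → M}
    {I : Type u} [LinearOrder I] [WellFoundedLT I] {e : I → N} (he : IsEM L₁ a e)
    (htop : Substructure.closure L₁ (range e) = ⊤) {l : Cardinal.{u}} (hl : ℵ₀ ≤ l)
    (hL₁ : L₁.card ≤ l) (R : L₁.Relations 2) (σ : Fin 2 → Fin 2) (A : Set N) (hA : #A ≤ l) :
    #(range (fun z : N => {y : N | y ∈ A ∧
      RelMap R (fun k => (![y, z] : Fin 2 → N) (σ k))})) ≤ l := by
  classical
  have hterm : ∀ x : N, ∃ t : L₁.Term I, t.realize e = x := fun x => by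
    rw [← Gr.mem_closure_range, htop]
    trivial
  choose t ht using hterm
  let B : Set I := ⋃ y : A, ((t y.1).varFinset : Set I)
  have hB : #B ≤ l := by
    refine (mk_iUnion_le _).trans ?_
    refine (mul_le_mul' (b := l) (d := l) hA (ciSup_le' fun y => ?_)).trans (mul_eq_self hl).le
    exact (Cardinal.lt_aleph0_of_finite _).le.trans hl
  have hvarB : ∀ y ∈ A, ∀ i ∈ (t y).varFinset, i ∈ B := by
    intro y hy i hi
    exact mem_iUnion.2 ⟨⟨y, hy⟩, hi⟩
  -- the terms of the elements of A
  have hA' : ∀ y ∈ A, ∃ s : L₁.Term B, s.realize (fun b : B => e b.1) = y := by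
    intro y hy
    refine ⟨(t y).restrictVar (fun i => ⟨i.1, hvarB y hy i.1 i.2⟩), ?_⟩
    exact (Term.realize_restrictVar (v := fun b : B => e b.1) e (fun i => rfl)).trans (ht y)
  -- codes
  let F : N → Finset I := fun z => (t z).varFinset
  let q : ∀ z : N, Fin (F z).card ↪o I := fun z => (F z).orderEmbOfFin rfl
  have hq : ∀ (z : N) (i : F z), ∃ k, q z k = i.1 := by
    intro z i
    have h5 : i.1 ∈ (F z : Set I) := i.2
    rw [← (F z).range_orderEmbOfFin rfl] at h5
    exact h5
  choose g hg using hq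
  let s : ∀ z : N, L₁.Term (Fin (F z).card) := fun z => (t z).restrictVar (g z)
  have hs : ∀ z, (s z).realize (fun k => e (q z k)) = z := by
    intro z
    have h1 := Term.realize_restrictVar (t := t z) (f := g z) (v := fun k => e (q z k)) e
      (fun i => by
        rw [hg z i])
    exact h1.trans (ht z)
  let code : N → ECode L₁ B := fun z => ⟨(F z).card, s z, fun k => cutCode B (q z k)⟩
  have key : ∀ (z z' : N) (n n' : ℕ) (s : L₁.Term (Fin n)) (s' : L₁.Term (Fin n'))
      (q : Fin n ↪o I) (q' : Fin n' ↪o I), s.realize (fun k => e (q k)) = z →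
      s'.realize (fun k => e (q' k)) = z' →
      (⟨n, s, fun k => cutCode B (q k)⟩ : ECode L₁ B) = ⟨n', s', fun k => cutCode B (q' k)⟩ →
      ∀ y ∈ A, RelMap R (fun k => (![y, z] : Fin 2 → N) (σ k)) ↔
        RelMap R (fun k => (![y, z'] : Fin 2 → N) (σ k)) := by
    intro z z' n n' s s' q q' hsz hsz' heq y hy
    obtain rfl : n = n' := congrArg Sigma.fst heq
    rw [Sigma.mk.injEq] at heq
    have h2 := eq_of_heq heq.2
    rw [Prod.mk.injEq] at h2
    obtain ⟨rfl, hc⟩ := h2
    have hc' : ∀ k, cutCode B (q k) = cutCode B (q' k) := fun k => congrFun hc k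
    let w : B ⊕ Fin n → I := Sum.elim (fun b => b.1) (fun k => q k)
    let w' : B ⊕ Fin n → I := Sum.elim (fun b => b.1) (fun k => q' k)
    have hw : ∀ p p', w p ≤ w p' ↔ w' p ≤ w' p' := by
      rintro (b | k) (b' | k')
      · exact Iff.rfl
      · change b.1 ≤ q k' ↔ b.1 ≤ q' k'
        rw [← not_lt, ← not_lt, cutCode_snd B _ b, cutCode_snd B _ b, hc' k']
      · change q k ≤ b'.1 ↔ q' k ≤ b'.1
        rw [cutCode_fst B _ b', cutCode_fst B _ b', hc' k]
      · change q k ≤ q k' ↔ q' k ≤ q' k'
        rw [q.le_iff_le, q'.le_iff_le]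
    have hat : AtEq L₁ (fun p => e (w p)) (fun p => e (w' p)) := IsEM.pattern he he w w' hw
    obtain ⟨ty, hty⟩ := hA' y hy
    have h3 := hat.2 2 R (fun k => (![ty.relabel Sum.inl, s.relabel Sum.inr] :
      Fin 2 → L₁.Term (B ⊕ Fin n)) (σ k))
    have h4 : ∀ (v : B ⊕ Fin n → I) (z₀ : N) (hv1 : ∀ b, v (Sum.inl b) = b.1)
        (hv2 : s.realize (fun k => e (v (Sum.inr k))) = z₀),
        (fun k => ((![ty.relabel Sum.inl, s.relabel Sum.inr] :
          Fin 2 → L₁.Term (B ⊕ Fin n)) (σ k)).realize (fun p => e (v p))) =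
        fun k => (![y, z₀] : Fin 2 → N) (σ k) := by
      intro v z₀ hv1 hv2
      have h5 : ∀ j : Fin 2, ((![ty.relabel Sum.inl, s.relabel Sum.inr] :
          Fin 2 → L₁.Term (B ⊕ Fin n)) j).realize (fun p => e (v p)) =
          (![y, z₀] : Fin 2 → N) j := by
        intro j
        refine Fin.cases ?_ (fun j => ?_) j
        · change (ty.relabel Sum.inl).realize (fun p => e (v p)) = y
          rw [Term.realize_relabel, ← hty]
          congr 1
          funext b
          change e (v (Sum.inl b)) = e b.1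
          rw [hv1 b]
        · refine Fin.cases ?_ (fun j => j.elim0) j
          change (s.relabel Sum.inr).realize (fun p => e (v p)) = z₀
          rw [Term.realize_relabel]
          exact hv2
      funext k
      exact h5 (σ k)
    rw [h4 w z (fun b => rfl) hsz, h4 w' z' (fun b => rfl) hsz'] at h3
    exact h3
  refine le_trans ?_ (mk_ECode_le hl hL₁ B hB)
  let f : range (fun z : N => {y : N | y ∈ A ∧
      RelMap R (fun k => (![y, z] : Fin 2 → N) (σ k))}) → ECode L₁ B := fun c => code c.2.choose
  refine mk_le_of_injective (f := f) ?_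
  intro c c' hcc
  have e1 := c.2.choose_spec
  have e2 := c'.2.choose_spec
  apply Subtype.ext
  rw [← e1, ← e2]
  ext y
  constructor
  · rintro ⟨hy, hr⟩
    exact ⟨hy, (key _ _ _ _ _ _ _ _ (hs _) (hs _) hcc y hy).1 hr⟩
  · rintro ⟨hy, hr⟩
    exact ⟨hy, (key _ _ _ _ _ _ _ _ (hs _) (hs _) hcc y hy).2 hr⟩

end Vale.Agent.P307.H67
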