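import Vale.Agent.P307.H67.Tree

universe u

namespace Vale.Agent.P307.H67

open FirstOrder Cardinal Set Language Structure

section

variable {L : Language.{u, u}} {R : L.Relations 2} {M : Type u} [L.Structure M]

lemma side_stepG {G : SimpleGraph M}
    (hV : ∀ x y : M, G.Adj x y → RelMap R ![x, y] ∨ RelMap R ![y, x])
    (hT : IsTreeOrder R M) {a b x x' : M} (hab : a ≠ b)
    (hba : ¬ RelMap R ![b, a]) (hx : x ∈ side R a b) (hadj : G.Adj x x')
    (hx' : ¬ (RelMap R ![x', a] ∧ RelMap R ![x', b])) : x' ∈ side R a b := by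
  obtain ⟨y, h1, h2, h3⟩ := hx
  obtain ⟨hirr, htr, hlin⟩ := hT
  rcases hV _ _ hadj with h | h
  · refine ⟨y, Or.inr ?_, h2, h3⟩
    rcases h1 with rfl | h1
    · exact h
    · exact htr _ _ _ h1 h
  · -- `x' < x`
    have hcmp : (y = x' ∨ RelMap R ![y, x']) ∨ RelMap R ![x', y] := by
      rcases h1 with rfl | h1
      · exact Or.inr h
      · rcases hlin y x' x h1 h with h4 | h4 | h4
        · exact Or.inl (Or.inr h4)
        · exact Or.inl (Or.inl h4)
        · exact Or.inr h4
    rcases hcmp with h4 | h4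
    · exact ⟨y, h4, h2, h3⟩
    · have h5 : RelMap R ![x', a] := by
        rcases h2 with rfl | h2
        · exact h4
        · exact htr _ _ _ h4 h2
      refine ⟨x', Or.inl rfl, Or.inr h5, ?_⟩
      rintro (h6 | h6)
      · rw [h6] at h5
        exact hba h5
      · exact hx' ⟨h5, h6⟩

lemma side_walkG {G : SimpleGraph M}
    (hV : ∀ x y : M, G.Adj x y → RelMap R ![x, y] ∨ RelMap R ![y, x])
    (hT : IsTreeOrder R M) {a b : M} (hab : a ≠ b)
    (hba : ¬ RelMap R ![b, a]) {u v : M} (p : G.Walk u v)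
    (hp : ∀ s ∈ p.support, ¬ (RelMap R ![s, a] ∧ RelMap R ![s, b])) (hu : u ∈ side R a b) :
    v ∈ side R a b := by
  induction p with
  | nil => exact hu
  | @cons u w v h q ih =>
    refine ih (fun s hs => hp s ?_) (side_stepG hV hT hab hba hu h (hp w ?_))
    · rw [SimpleGraph.Walk.support_cons]
      exact List.mem_cons_of_mem _ hs
    · rw [SimpleGraph.Walk.support_cons]
      exact List.mem_cons_of_mem _ q.start_mem_support

/-- in a tree without long chains there is no large complete subdivision -/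
theorem no_subdivision_treeG {G : SimpleGraph M}
    (hV : ∀ x y : M, G.Adj x y → RelMap R ![x, y] ∨ RelMap R ![y, x])
    (hT : IsTreeOrder R M) {θ κ : Cardinal.{u}}
    (hθκ : θ ≤ κ) (hκ : ℵ₀ ≤ κ)
    (hch : ∀ C : Set M, (∀ x ∈ C, ∀ y ∈ C, x ≠ y → (RelMap R ![x, y] ↔ ¬ RelMap R ![y, x])) →
      #C < θ) : ¬ Gr.HasCompleteSubdivision G κ := by
  rintro ⟨B, p, hB, hp, hq⟩
  have hasym : ∀ x y : M, RelMap R ![x, y] → ¬ RelMap R ![y, x] := fun x y h h' =>
    hT.1 x (hT.2.1 x y x h h')
  by_cases hcmp : ∀ a ∈ B, ∀ b ∈ B, a ≠ b → RelMap R ![a, b] ∨ RelMap R ![b, a]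
  · have h1 := hch B fun x hx y hy hxy => by
      constructor
      · exact hasym x y
      · intro h
        exact (hcmp x hx y hy hxy).resolve_right h
    rw [hB] at h1
    exact absurd h1 (not_lt.2 hθκ)
  · push Not at hcmp
    obtain ⟨a, ha, b, hb, hab, h1, h2⟩ := hcmp
    let S : Set M := {z | RelMap R ![z, a] ∧ RelMap R ![z, b]}
    have hS : #S < θ := by
      refine hch S fun x hx y hy hxy => ?_
      constructor
      · exact hasym x y
      · intro h
        rcases hT.2.2 x y a hx.1 hy.1 with h3 | h3 | h3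
        · exact h3
        · exact absurd h3 hxy
        · exact absurd h3 h
    let a' : B := ⟨a, ha⟩
    let b' : B := ⟨b, hb⟩
    let B' : Set B := {c | c ≠ a' ∧ c ≠ b'}
    have hex : ∀ c : B', ∃ s : S, (s.1 ∈ (p a' c.1).support ∨ s.1 ∈ (p c.1 b').support) := by
      intro c
      by_contra hcon
      push Not at hcon
      have h3 : a ∈ side R a b := ⟨a, Or.inl rfl, Or.inl rfl, by
        rintro (h | h)
        · exact hab h
        · exact h1 h⟩
      have h4 : c.1.1 ∈ side R a b := side_walkG hV hT hab h2 (p a' c.1)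
        (fun s hs h => (hcon ⟨s, h⟩).1 hs) h3
      have h5 : b ∈ side R a b := side_walkG hV hT hab h2 (p c.1 b')
        (fun s hs h => (hcon ⟨s, h⟩).2 hs) h4
      obtain ⟨y, h6, -, h7⟩ := h5
      exact h7 h6
    choose s hs using hex
    have hinj : Function.Injective s := by
      intro c c' hcc
      by_contra hne
      have hne' : c.1 ≠ c'.1 := fun h => hne (Subtype.ext h)
      have hc1 : a' ≠ c.1 := fun h => c.2.1 h.symm
      have hc2 : c.1 ≠ b' := c.2.2
      have hc1' : a' ≠ c'.1 := fun h => c'.2.1 h.symm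
      have hc2' : c'.1 ≠ b' := c'.2.2
      have hsa : (s c).1 ≠ a := fun h => hT.1 a (by
        have := (s c).2.1
        rwa [h] at this)
      have hsb : (s c).1 ≠ b := fun h => hT.1 b (by
        have := (s c).2.2
        rwa [h] at this)
      have hab' : a' ≠ b' := fun h => hab (congrArg Subtype.val h)
      have hs' := hs c'
      rw [← hcc] at hs'
      have n1 : s(a', c.1) ≠ s(a', c'.1) := by
        rw [Ne, Sym2.eq_iff]
        rintro (⟨-, h⟩ | ⟨h, -⟩)
        · exact hne' h
        · exact hc1' h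
      have n2 : s(a', c.1) ≠ s(c'.1, b') := by
        rw [Ne, Sym2.eq_iff]
        rintro (⟨h, -⟩ | ⟨h, -⟩)
        · exact hc1' h
        · exact hab' h
      have n3 : s(c.1, b') ≠ s(a', c'.1) := by
        rw [Ne, Sym2.eq_iff]
        rintro (⟨h, -⟩ | ⟨-, h⟩)
        · exact hc1 h.symm
        · exact hab' h.symm
      have n4 : s(c.1, b') ≠ s(c'.1, b') := by
        rw [Ne, Sym2.eq_iff]
        rintro (⟨h, -⟩ | ⟨h, -⟩)
        · exact hne' h
        · exact hc2 h
      have hmem : (s c).1 ∈ B := by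
        rcases hs c with h3 | h3 <;> rcases hs' with h4 | h4
        · exact hq _ _ _ _ hc1 hc1' n1 _ h3 h4
        · exact hq _ _ _ _ hc1 hc2' n2 _ h3 h4
        · exact hq _ _ _ _ hc2 hc1' n3 _ h3 h4
        · exact hq _ _ _ _ hc2 hc2' n4 _ h3 h4
      have e1 : (s c).1 = c.1.1 := by
        rcases hs c with h3 | h3
        · exact ((hp _ _ hc1).2 _ h3 hmem).resolve_left hsa
        · exact ((hp _ _ hc2).2 _ h3 hmem).resolve_right hsb
      have e2 : (s c).1 = c'.1.1 := by
        rcases hs' with h3 | h3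
        · exact ((hp _ _ hc1').2 _ h3 hmem).resolve_left hsa
        · exact ((hp _ _ hc2').2 _ h3 hmem).resolve_right hsb
      exact hne' (Subtype.ext (e1.symm.trans e2))
    have h3 : #B' ≤ #S := mk_le_of_injective hinj
    have h4 : #B ≤ #B' + #({a', b'} : Set B) := by
      rw [← mk_univ]
      refine (mk_le_mk_of_subset ?_).trans (mk_union_le B' ({a', b'} : Set B))
      intro c _
      by_cases hc : c = a'
      · exact Or.inr (Or.inl hc)
      · by_cases hc' : c = b'
        · exact Or.inr (Or.inr hc')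
        · exact Or.inl ⟨hc, hc'⟩
    have h5 : #({a', b'} : Set B) < ℵ₀ := (Set.toFinite _).lt_aleph0
    have h6 : #B < κ := h4.trans_lt (add_lt_of_lt hκ (h3.trans_lt (hS.trans_le hθκ))
      (h5.trans_le hκ))
    rw [hB] at h6
    exact lt_irrefl _ h6

end

end Vale.Agent.P307.H67
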