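import Vale.Agent.P307.H67.Class
import Vale.Agent.P307.H67.TreeG

universe u

namespace Vale.Agent.P307.H67

open FirstOrder Cardinal Language Set

/-! ### separators and subdivisions -/

section

variable {V : Type u} {G : SimpleGraph V} {B : Set V} {p : ∀ a b : B, G.Walk a.1 b.1}
  {κ : Cardinal.{u}}

lemma exists_avoiding (hκ : ℵ₀ ≤ κ) (hB : #B = κ)
    (hp : ∀ a b : B, a ≠ b → (p a b).IsPath ∧ ∀ x ∈ (p a b).support, x ∈ B → x = a.1 ∨ x = b.1)
    (hq : ∀ a b c d : B, a ≠ b → c ≠ d → s(a, b) ≠ s(c, d) →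
      ∀ x ∈ (p a b).support, x ∈ (p c d).support → x ∈ B)
    (X : Set V) (hX : #X < κ) {a b : B} (hab : a ≠ b) (ha : a.1 ∉ X) (hb : b.1 ∉ X) :
    ∃ c : B, (∀ s ∈ X, s ∉ (p a c).support) ∧ ∀ s ∈ X, s ∉ (p c b).support := by
  by_contra hcon
  push Not at hcon
  let B' : Set B := {c | c ≠ a ∧ c ≠ b}
  have hex : ∀ c : B', ∃ s : X, (s.1 ∈ (p a c.1).support ∨ s.1 ∈ (p c.1 b).support) := by
    intro c
    by_cases h : ∀ s ∈ X, s ∉ (p a c.1).support
    · obtain ⟨s, hs, hs'⟩ := hcon c.1 h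
      exact ⟨⟨s, hs⟩, Or.inr hs'⟩
    · push Not at h
      obtain ⟨s, hs, hs'⟩ := h
      exact ⟨⟨s, hs⟩, Or.inl hs'⟩
  choose s hs using hex
  have hinj : Function.Injective s := by
    intro c c' hcc
    by_contra hne
    have hne' : c.1 ≠ c'.1 := fun h => hne (Subtype.ext h)
    have hc1 : a ≠ c.1 := fun h => c.2.1 h.symm
    have hc2 : c.1 ≠ b := c.2.2
    have hc1' : a ≠ c'.1 := fun h => c'.2.1 h.symm
    have hc2' : c'.1 ≠ b := c'.2.2
    have hsa : (s c).1 ≠ a.1 := fun h => ha (h ▸ (s c).2)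
    have hsb : (s c).1 ≠ b.1 := fun h => hb (h ▸ (s c).2)
    have hs' := hs c'
    rw [← hcc] at hs'
    have n1 : s(a, c.1) ≠ s(a, c'.1) := by
      rw [Ne, Sym2.eq_iff]
      rintro (⟨-, h⟩ | ⟨h, -⟩)
      · exact hne' h
      · exact hc1' h
    have n2 : s(a, c.1) ≠ s(c'.1, b) := by
      rw [Ne, Sym2.eq_iff]
      rintro (⟨h, -⟩ | ⟨h, -⟩)
      · exact hc1' h
      · exact hab h
    have n3 : s(c.1, b) ≠ s(a, c'.1) := by
      rw [Ne, Sym2.eq_iff]
      rintro (⟨h, -⟩ | ⟨-, h⟩)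
      · exact hc1 h.symm
      · exact hab h.symm
    have n4 : s(c.1, b) ≠ s(c'.1, b) := by
      rw [Ne, Sym2.eq_iff]
      rintro (⟨h, -⟩ | ⟨h, -⟩)
      · exact hne' h
      · exact hc2 h
    have hmem : (s c).1 ∈ B := by
      rcases hs c with h3 | h3 <;> rcases hs' with h4 | h4
      · exact hq _ _ _ _ hc1 hc1' n1 _ h3 h4
      · exact hq _ _ _ _ hc1 hc2' n2 _ h3 h4
      · exact hq _ _ _ _ hc2 hc1' n3 _ h3 h4
      · exact hq _ _ _ _ hc2 hc2' n4 _ h3 h4
    have e1 : (s c).1 = c.1.1 := by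
      rcases hs c with h3 | h3
      · exact ((hp _ _ hc1).2 _ h3 hmem).resolve_left hsa
      · exact ((hp _ _ hc2).2 _ h3 hmem).resolve_right hsb
    have e2 : (s c).1 = c'.1.1 := by
      rcases hs' with h3 | h3
      · exact ((hp _ _ hc1').2 _ h3 hmem).resolve_left hsa
      · exact ((hp _ _ hc2').2 _ h3 hmem).resolve_right hsb
    exact hne' (Subtype.ext (e1.symm.trans e2))
  have h3 : #B' ≤ #X := mk_le_of_injective hinj
  have h4 : #B ≤ #B' + #({a, b} : Set B) := by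
    rw [← mk_univ]
    refine (mk_le_mk_of_subset ?_).trans (mk_union_le B' ({a, b} : Set B))
    intro c _
    by_cases hc : c = a
    · exact Or.inr (Or.inl hc)
    · by_cases hc' : c = b
      · exact Or.inr (Or.inr hc')
      · exact Or.inl ⟨hc, hc'⟩
  have h5 : #({a, b} : Set B) < ℵ₀ := (Set.toFinite _).lt_aleph0
  have h6 : #B < κ := h4.trans_lt (add_lt_of_lt hκ (h3.trans_lt hX) (h5.trans_le hκ))
  rw [hB] at h6
  exact lt_irrefl _ h6

lemma walk_closed {A X : Set V} (hA : ∀ v w, v ∈ A → G.Adj v w → w ∉ X → w ∈ A) {u v : V}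
    (q : G.Walk u v) (hX : ∀ s ∈ X, s ∉ q.support) (hu : u ∈ A) : ∀ w ∈ q.support, w ∈ A := by
  induction q with
  | nil =>
    intro w hw
    rw [SimpleGraph.Walk.support_nil, List.mem_singleton] at hw
    rw [hw]
    exact hu
  | @cons u w v h q ih =>
    rw [SimpleGraph.Walk.support_cons] at hX ⊢
    have h1 : w ∈ A := hA u w hu h fun hw => hX w hw (List.mem_cons_of_mem _ q.start_mem_support)
    have h2 := ih (fun s hs hs' => hX s hs (List.mem_cons_of_mem _ hs')) h1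
    intro z hz
    rcases List.mem_cons.1 hz with rfl | hz
    · exact hu
    · exact h2 z hz

lemma separated (hκ : ℵ₀ ≤ κ) (hB : #B = κ)
    (hp : ∀ a b : B, a ≠ b → (p a b).IsPath ∧ ∀ x ∈ (p a b).support, x ∈ B → x = a.1 ∨ x = b.1)
    (hq : ∀ a b c d : B, a ≠ b → c ≠ d → s(a, b) ≠ s(c, d) →
      ∀ x ∈ (p a b).support, x ∈ (p c d).support → x ∈ B)
    {A X : Set V} (hX : #X < κ) (hA : ∀ v w, v ∈ A → G.Adj v w → w ∉ X → w ∈ A) {a b : B}
    (ha : a.1 ∉ X) (hb : b.1 ∉ X) (haA : a.1 ∈ A) : b.1 ∈ A := by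
  by_cases hab : a = b
  · rw [← hab]
    exact haA
  · obtain ⟨c, h1, h2⟩ := exists_avoiding hκ hB hp hq X hX hab ha hb
    have h3 := walk_closed hA (p a c) h1 haA c.1 (SimpleGraph.Walk.end_mem_support _)
    exact walk_closed hA (p c b) h2 h3 b.1 (SimpleGraph.Walk.end_mem_support _)

end

section

variable {L : Language.{u, u}} {Q : Set (L.Relations 2)} {M : Type u} [L.Structure M]

/-- walks among the elements -/
lemma walk_lift {u v : M ⊕ Q × Set M} (q : (classGraph L Q M).Walk u v)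
    (h : ∀ w ∈ q.support, ∃ z : M, w = Sum.inl z) :
    ∀ x y : M, u = Sum.inl x → v = Sum.inl y →
      ∃ q' : (restGraph L Q M).Walk x y, q'.support.map Sum.inl = q.support := by
  induction q with
  | nil =>
    intro x y hx hy
    have hxy : x = y := Sum.inl_injective (hx.symm.trans hy)
    subst hxy
    refine ⟨SimpleGraph.Walk.nil, ?_⟩
    rw [SimpleGraph.Walk.support_nil, SimpleGraph.Walk.support_nil, hx]
    rfl
  | @cons u w v hadj q ih =>
    intro x y hx hy
    rw [SimpleGraph.Walk.support_cons] at h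
    obtain ⟨z, hz⟩ := h w (List.mem_cons_of_mem _ q.start_mem_support)
    obtain ⟨q', hq'⟩ := ih (fun w hw => h w (List.mem_cons_of_mem _ hw)) z y hz hy
    have hadj' : (restGraph L Q M).Adj x z := by
      rw [hx, hz] at hadj
      exact hadj
    refine ⟨SimpleGraph.Walk.cons hadj' q', ?_⟩
    rw [SimpleGraph.Walk.support_cons, SimpleGraph.Walk.support_cons, List.map_cons, hq', hx]

lemma class_ne_nil {E : Q} {c : Set M} {v : M ⊕ Q × Set M} (hne : Sum.inr (E, c) ≠ v)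
    (q : (classGraph L Q M).Walk (Sum.inr (E, c)) v) :
    ∃ x : M, c = {y | Structure.RelMap E.1 ![x, y]} := by
  cases q with
  | nil => exact absurd rfl hne
  | @cons _ w _ h q =>
    match w, h with
    | Sum.inl x, h => exact ⟨x, h⟩
    | Sum.inr p, h => exact h.elim

lemma rel_of_class {E : L.Relations 2}
    (hE : Equivalence fun x y : M => Structure.RelMap E ![x, y]) {x y : M}
    (h : ({z | Structure.RelMap E ![x, z]} : Set M) = {z | Structure.RelMap E ![y, z]}) :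
    Structure.RelMap E ![x, y] := by
  have h1 : y ∈ {z | Structure.RelMap E ![y, z]} := hE.refl y
  rw [← h] at h1
  exact h1

lemma class_of_rel {E : L.Relations 2}
    (hE : Equivalence fun x y : M => Structure.RelMap E ![x, y]) {x y : M}
    (h : Structure.RelMap E ![x, y]) :
    ({z | Structure.RelMap E ![x, z]} : Set M) = {z | Structure.RelMap E ![y, z]} := by
  ext z
  exact ⟨fun h' => hE.trans (hE.symm h) h', fun h' => hE.trans h h'⟩

/-- the class graph of a laminar structure has no large complete subdivision -/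
theorem laminar_no_subdivision (hL : IsLaminar Q M) {κ : Cardinal.{u}} (hκ : ℵ₀ ≤ κ)
    (hQ : #Q < κ) (hno : ¬ Gr.HasCompleteSubdivision (restGraph L Q M) κ) :
    ¬ Gr.HasCompleteSubdivision (classGraph L Q M) κ := by
  classical
  rintro ⟨B, p, hB, hp, hq⟩
  obtain ⟨hEq, hcmp, hadj⟩ := hL
  -- two classes of the same level
  have case1 : ∀ (E : Q) (c c' : Set M) (hc : Sum.inr (E, c) ∈ B) (hc' : Sum.inr (E, c') ∈ B),
      c = c' := by
    intro E c c' hc hc'
    by_contra hne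
    have hne1 : (Sum.inr (E, c) : M ⊕ Q × Set M) ≠ Sum.inr (E, c') := by
      intro h
      exact hne (congrArg Prod.snd (Sum.inr_injective h))
    obtain ⟨x, rfl⟩ := class_ne_nil hne1 (p ⟨_, hc⟩ ⟨_, hc'⟩)
    obtain ⟨x', rfl⟩ := class_ne_nil hne1.symm (p ⟨_, hc'⟩ ⟨_, hc⟩)
    have hxx : ¬ Structure.RelMap E.1 ![x, x'] := fun h => hne (class_of_rel (hEq E.1 E.2) h)
    -- a common upper bound in `J`
    have hmax : ∀ E₁ ∈ Q, ∀ E₂ ∈ Q, ¬ Structure.RelMap E₁ ![x, x'] →
        ¬ Structure.RelMap E₂ ![x, x'] → ∃ E₃ ∈ Q, ¬ Structure.RelMap E₃ ![x, x'] ∧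
        (∀ y z : M, Structure.RelMap E₁ ![y, z] → Structure.RelMap E₃ ![y, z]) ∧
        ∀ y z : M, Structure.RelMap E₂ ![y, z] → Structure.RelMap E₃ ![y, z] := by
      intro E₁ h1 E₂ h2 g1 g2
      rcases hcmp E₁ h1 E₂ h2 with h | h
      · exact ⟨E₂, h2, g2, h, fun _ _ h => h⟩
      · exact ⟨E₁, h1, g1, fun _ _ h => h, h⟩
    let A₀ : Set M := {y | ∃ E₁ ∈ Q, ¬ Structure.RelMap E₁ ![x, x'] ∧ Structure.RelMap E₁ ![x, y]}
    let A : Set (M ⊕ Q × Set M) := {v | (∃ y ∈ A₀, v = Sum.inl y) ∨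
      ∃ E₁ : Q, ¬ Structure.RelMap E₁.1 ![x, x'] ∧
        ∃ y ∈ A₀, v = Sum.inr (E₁, {z | Structure.RelMap E₁.1 ![y, z]})}
    let X : Set (M ⊕ Q × Set M) := {v | ∃ E₁ : Q, Structure.RelMap E₁.1 ![x, x'] ∧
      v = Sum.inr (E₁, {z | Structure.RelMap E₁.1 ![x, z]})}
    have hX : #X < κ := by
      refine lt_of_le_of_lt ?_ hQ
      have h1 : X ⊆ range fun E₁ : Q => (Sum.inr (E₁, {z | Structure.RelMap E₁.1 ![x, z]}) :
          M ⊕ Q × Set M) := by
        rintro v ⟨E₁, -, rfl⟩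
        exact ⟨E₁, rfl⟩
      exact (mk_le_mk_of_subset h1).trans mk_range_le
    have hA : ∀ v w, v ∈ A → (classGraph L Q M).Adj v w → w ∉ X → w ∈ A := by
      intro v w hv hvw hw
      rcases hv with ⟨y, hy, rfl⟩ | ⟨E₁, hE₁, y, hy, rfl⟩
      · obtain ⟨E₂, h2, g2, r2⟩ := hy
        match w, hvw, hw with
        | Sum.inl z, hvw, _ =>
          have h3 := hadj y z hvw E₂ h2
          exact Or.inl ⟨z, ⟨E₂, h2, g2, (hEq E₂ h2).trans r2 h3⟩, rfl⟩
        | Sum.inr ⟨E₃, d⟩, hvw, hw =>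
          have hd : d = {z | Structure.RelMap E₃.1 ![y, z]} := hvw
          subst hd
          by_cases h3 : Structure.RelMap E₃.1 ![x, x']
          · exfalso
            apply hw
            refine ⟨E₃, h3, ?_⟩
            rcases hcmp E₂ h2 E₃.1 E₃.2 with h | h
            · rw [class_of_rel (hEq E₃.1 E₃.2) (h x y r2)]
            · exact absurd (h _ _ h3) g2
          · exact Or.inr ⟨E₃, h3, y, ⟨E₂, h2, g2, r2⟩, rfl⟩
      · match w, hvw with
        | Sum.inl z, hvw =>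
          have hd : ({z' | Structure.RelMap E₁.1 ![y, z']} : Set M) =
              {z' | Structure.RelMap E₁.1 ![z, z']} := hvw
          have h3 := rel_of_class (hEq E₁.1 E₁.2) hd
          obtain ⟨E₂, h2, g2, r2⟩ := hy
          obtain ⟨E₃, h4, g4, h5, h6⟩ := hmax E₁.1 E₁.2 E₂ h2 hE₁ g2
          exact Or.inl ⟨z, ⟨E₃, h4, g4, (hEq E₃ h4).trans (h6 _ _ r2) (h5 _ _ h3)⟩, rfl⟩
        | Sum.inr _, hvw => exact hvw.elim
    have hnX : ∀ c'' : Set M, (Sum.inr (E, c'') : M ⊕ Q × Set M) ∉ X := by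
      rintro c'' ⟨E₁, h1, h2⟩
      have h3 : E = E₁ := congrArg Prod.fst (Sum.inr_injective h2)
      rw [← h3] at h1
      exact hxx h1
    have hend := separated hκ hB hp hq hX hA (a := ⟨_, hc⟩) (b := ⟨_, hc'⟩) (hnX _) (hnX _)
      (Or.inr ⟨E, hxx, x, ⟨E.1, E.2, hxx, (hEq E.1 E.2).refl x⟩, rfl⟩)
    rcases hend with ⟨y, -, h⟩ | ⟨E₁, h1, y, ⟨E₂, h2, g2, r2⟩, h⟩
    · cases h
    · have h3 := Sum.inr_injective h
      have h4 : E = E₁ := congrArg Prod.fst h3
      have h5 := congrArg Prod.snd h3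
      subst h4
      have h6 := rel_of_class (hEq E.1 E.2) h5
      obtain ⟨E₃, h7, g7, h8, h9⟩ := hmax E.1 E.2 E₂ h2 h1 g2
      exact g7 ((hEq E₃ h7).trans (h9 _ _ r2) ((hEq E₃ h7).symm (h8 _ _ h6)))
  -- the branch vertices which are elements
  let B₀ : Set M := {x | (Sum.inl x : M ⊕ Q × Set M) ∈ B}
  have hB₀ : #B₀ = κ := by
    have h1 : #B₀ ≤ κ := by
      rw [← hB]
      exact mk_le_of_injective (f := fun x : B₀ => (⟨Sum.inl x.1, x.2⟩ : B)) fun x y h =>
        Subtype.ext (Sum.inl_injective (congrArg Subtype.val h))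
    refine le_antisymm h1 ?_
    by_contra hcon
    rw [not_le] at hcon
    have h2 : #B ≤ #(B₀ ⊕ Q) := by
      refine mk_le_of_injective (f := fun b : B => match b with
        | ⟨Sum.inl x, h⟩ => (Sum.inl ⟨x, h⟩ : B₀ ⊕ Q)
        | ⟨Sum.inr r, _⟩ => Sum.inr r.1) ?_
      intro b b' h
      match b, b', h with
      | ⟨Sum.inl x, _⟩, ⟨Sum.inl y, _⟩, h =>
        have h3 : x = y := congrArg Subtype.val (Sum.inl_injective h)
        subst h3
        rfl
      | ⟨Sum.inl x, _⟩, ⟨Sum.inr r, _⟩, h => cases h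
      | ⟨Sum.inr r, _⟩, ⟨Sum.inl x, _⟩, h => cases h
      | ⟨Sum.inr ⟨E, c⟩, hc⟩, ⟨Sum.inr ⟨E', c'⟩, hc'⟩, h =>
        have h3 : E = E' := Sum.inr_injective h
        subst h3
        have h4 := case1 E c c' hc hc'
        subst h4
        rfl
    rw [mk_sum, lift_id, lift_id, hB] at h2
    exact absurd h2 (not_le.2 (add_lt_of_lt hκ hcon hQ))
  have hB₀ne : B₀.Nonempty := by
    rw [← nonempty_coe_sort, ← mk_ne_zero_iff, hB₀]
    exact (aleph0_pos.trans_le hκ).ne'
  obtain ⟨x, hx⟩ := hB₀ne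
  let X : Set (M ⊕ Q × Set M) := range fun E₁ : Q => Sum.inr (E₁, {z | Structure.RelMap E₁.1 ![x, z]})
  have hX : #X < κ := mk_range_le.trans_lt hQ
  let A : Set (M ⊕ Q × Set M) := {v | ∃ y, Nonempty ((restGraph L Q M).Walk x y) ∧ v = Sum.inl y}
  have hwalk : ∀ (E : L.Relations 2), E ∈ Q → ∀ (u v : M), (restGraph L Q M).Walk u v →
      Structure.RelMap E ![u, v] := by
    intro E hE u v q
    induction q with
    | nil => exact (hEq E hE).refl _
    | @cons u w v h q ih => exact (hEq E hE).trans (hadj u w h E hE) ih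
  have hreach : ∀ y, Nonempty ((restGraph L Q M).Walk x y) → ∀ E ∈ Q, Structure.RelMap E ![x, y] := by
    rintro y ⟨q⟩ E hE
    exact hwalk E hE x y q
  have hA : ∀ v w, v ∈ A → (classGraph L Q M).Adj v w → w ∉ X → w ∈ A := by
    rintro v w ⟨y, hy, rfl⟩ hvw hw
    match w, hvw, hw with
    | Sum.inl z, hvw, _ =>
      have hvw' : (restGraph L Q M).Adj y z := hvw
      exact ⟨z, ⟨hy.some.append (SimpleGraph.Walk.cons hvw' SimpleGraph.Walk.nil)⟩, rfl⟩
    | Sum.inr ⟨E₃, d⟩, hvw, hw =>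
      exfalso
      apply hw
      have hd : d = {z | Structure.RelMap E₃.1 ![y, z]} := hvw
      refine ⟨E₃, ?_⟩
      dsimp only
      rw [hd, class_of_rel (hEq E₃.1 E₃.2) (hreach y hy E₃.1 E₃.2)]
  have hinX : ∀ z : M, (Sum.inl z : M ⊕ Q × Set M) ∉ X := by
    rintro z ⟨E₁, h⟩
    cases h
  have hBA : ∀ y ∈ B₀, Nonempty ((restGraph L Q M).Walk x y) := by
    intro y hy
    have h1 := separated hκ hB hp hq hX hA (a := ⟨_, hx⟩) (b := ⟨_, hy⟩) (hinX _) (hinX _)
      ⟨x, ⟨SimpleGraph.Walk.nil⟩, rfl⟩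
    obtain ⟨z, h2, h3⟩ := h1
    have h4 : y = z := Sum.inl_injective h3
    rw [h4]
    exact h2
  -- bad pairs
  let bad : X → B × B → Prop := fun s ab => ab.1 ≠ ab.2 ∧ s.1 ∈ (p ab.1 ab.2).support ∧
    (∃ z, ab.1.1 = Sum.inl z) ∧ ∃ z, ab.2.1 = Sum.inl z
  have hbad : ∀ s ab cd, bad s ab → bad s cd → s(ab.1, ab.2) = s(cd.1, cd.2) := by
    rintro s ab cd ⟨h1, h2, ⟨z1, h3⟩, z2, h4⟩ ⟨g1, g2, -, -⟩
    by_contra hne
    have h5 := hq _ _ _ _ h1 g1 hne _ h2 g2
    rcases (hp _ _ h1).2 _ h2 h5 with h6 | h6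
    · rw [h3] at h6
      exact hinX _ (h6 ▸ s.2)
    · rw [h4] at h6
      exact hinX _ (h6 ▸ s.2)
  let Z : Set M := {z | ∃ (s : X) (ab : B × B), bad s ab ∧ (ab.1.1 = Sum.inl z ∨ ab.2.1 = Sum.inl z)}
  have hZ : #Z < κ := by
    have hch : ∀ z : Z, ∃ (s : X) (ab : B × B),
        bad s ab ∧ (ab.1.1 = Sum.inl z.1 ∨ ab.2.1 = Sum.inl z.1) := fun z => z.2
    choose s ab hab hz using hch
    let pr : X → B × B := fun s => if h : ∃ ab, bad s ab then h.choose else (⟨_, hx⟩, ⟨_, hx⟩)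
    have hpr : ∀ s ab, bad s ab → bad s (pr s) := by
      intro s ab h
      have h1 : ∃ ab, bad s ab := ⟨ab, h⟩
      have h2 : pr s = h1.choose := dif_pos h1
      rw [h2]
      exact h1.choose_spec
    refine lt_of_le_of_lt (mk_le_of_injective (f := fun z : Z =>
      (s z, (ULift.up (decide ((pr (s z)).1.1 = Sum.inl z.1)) : ULift.{u} Bool))) ?_)
      (b := #(X × ULift.{u} Bool)) ?_
    · intro z z' h
      have h1 : s z = s z' := congrArg Prod.fst h
      have h2 : decide ((pr (s z)).1.1 = Sum.inl z.1) = decide ((pr (s z')).1.1 = Sum.inl z'.1) :=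
        congrArg (fun r => r.2.down) h
      have key : ∀ z : Z, (pr (s z)).1.1 = Sum.inl z.1 ∨ (pr (s z)).2.1 = Sum.inl z.1 := by
        intro z
        have h3 := hbad _ _ _ (hab z) (hpr _ _ (hab z))
        rw [Sym2.eq_iff] at h3
        rcases h3 with ⟨h4, h5⟩ | ⟨h4, h5⟩
        · rw [← h4, ← h5]
          exact hz z
        · rw [← h4, ← h5]
          exact (hz z).symm
      rw [← h1] at h2
      have k1 := key z
      have k2 := key z'
      rw [← h1] at k2
      by_cases h3 : (pr (s z)).1.1 = Sum.inl z.1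
      · have h4 : (pr (s z)).1.1 = Sum.inl z'.1 := by
          rw [decide_eq_true h3] at h2
          exact of_decide_eq_true h2.symm
        exact Subtype.ext (Sum.inl_injective (h3.symm.trans h4))
      · have h4 : ¬ (pr (s z)).1.1 = Sum.inl z'.1 := by
          rw [decide_eq_false h3] at h2
          exact of_decide_eq_false h2.symm
        exact Subtype.ext (Sum.inl_injective ((k1.resolve_left h3).symm.trans (k2.resolve_left h4)))
    · rw [mk_prod, lift_id, lift_id]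
      refine mul_lt_of_lt hκ hX (lt_of_lt_of_le ?_ hκ)
      exact lt_aleph0_of_finite _
  let B₁ : Set M := B₀ \ Z
  have hB₁ : #B₁ = κ := by
    have h1 : #B₁ ≤ κ := by
      rw [← hB₀]
      exact mk_le_mk_of_subset sdiff_subset
    refine le_antisymm h1 ?_
    by_contra hcon
    rw [not_le] at hcon
    have h2 : #B₀ ≤ #B₁ + #Z := by
      refine (mk_le_mk_of_subset ?_).trans (mk_union_le B₁ Z)
      intro y hy
      by_cases hyZ : y ∈ Z
      · exact Or.inr hyZ
      · exact Or.inl ⟨hy, hyZ⟩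
    rw [hB₀] at h2
    exact absurd h2 (not_le.2 (add_lt_of_lt hκ hcon hZ))
  -- the paths between good branch vertices
  let ι : B₁ → B := fun y => ⟨Sum.inl y.1, y.2.1⟩
  have hι : Function.Injective ι := fun y z h =>
    Subtype.ext (Sum.inl_injective (congrArg Subtype.val h))
  have hgood : ∀ a b : B₁, a ≠ b → ∀ w ∈ (p (ι a) (ι b)).support, ∃ z : M, w = Sum.inl z := by
    intro a b hab w hw
    have h1 : ∀ s ∈ X, s ∉ (p (ι a) (ι b)).support := by
      intro s hs hs'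
      refine a.2.2 ⟨⟨s, hs⟩, (ι a, ι b), ⟨fun h => hab (hι h), hs', ⟨a.1, rfl⟩, b.1, rfl⟩,
        Or.inl rfl⟩
    have h2 : (Sum.inl a.1 : M ⊕ Q × Set M) ∈ A := ⟨a.1, hBA a.1 a.2.1, rfl⟩
    obtain ⟨z, -, hz⟩ := walk_closed hA _ h1 h2 w hw
    exact ⟨z, hz⟩
  have hlift : ∀ a b : B₁, ∃ q : (restGraph L Q M).Walk a.1 b.1,
      a ≠ b → q.support.map Sum.inl = (p (ι a) (ι b)).support := by
    intro a b
    by_cases hab : a = b
    · subst hab
      exact ⟨SimpleGraph.Walk.nil, fun h => absurd rfl h⟩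
    · obtain ⟨q, hq⟩ := walk_lift _ (hgood a b hab) a.1 b.1 rfl rfl
      exact ⟨q, fun _ => hq⟩
  choose q hq' using hlift
  have hsupp : ∀ (a b : B₁), a ≠ b → ∀ z : M, z ∈ (q a b).support →
      (Sum.inl z : M ⊕ Q × Set M) ∈ (p (ι a) (ι b)).support := by
    intro a b hab z hz
    rw [← hq' a b hab]
    exact List.mem_map_of_mem hz
  have hends : ∀ (a b : B₁), a ≠ b → ∀ z ∈ (q a b).support, z ∈ B₀ → z = a.1 ∨ z = b.1 := by
    intro a b hab z hz hzB
    rcases (hp (ι a) (ι b) (fun h => hab (hι h))).2 _ (hsupp a b hab z hz) hzB with h | h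
    · exact Or.inl (Sum.inl_injective h)
    · exact Or.inr (Sum.inl_injective h)
  refine hno ⟨B₁, q, hB₁, ?_, ?_⟩
  · intro a b hab
    refine ⟨?_, fun z hz hzB => hends a b hab z hz hzB.1⟩
    have h1 := (hp (ι a) (ι b) (fun h => hab (hι h))).1
    rw [SimpleGraph.Walk.isPath_def] at h1 ⊢
    rw [← hq' a b hab] at h1
    exact List.Nodup.of_map _ h1
  · intro a b c d hab hcd hne z hz hz'
    have h1 : z ∈ B₀ := by
      refine hq (ι a) (ι b) (ι c) (ι d) (fun h => hab (hι h)) (fun h => hcd (hι h)) ?_ _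
        (hsupp a b hab z hz) (hsupp c d hcd z hz')
      intro h
      apply hne
      rw [Sym2.eq_iff] at h ⊢
      rcases h with ⟨h1, h2⟩ | ⟨h1, h2⟩
      · exact Or.inl ⟨hι h1, hι h2⟩
      · exact Or.inr ⟨hι h1, hι h2⟩
    rcases hends a b hab z hz h1 with h2 | h2
    · rw [h2]
      exact a.2
    · rw [h2]
      exact b.2

end

/-! ### the transfers -/

lemma subdivision_mono {V : Type u} {G : SimpleGraph V} {l κ : Cardinal.{u}} (h : l ≤ κ)
    (hs : Gr.HasCompleteSubdivision G κ) : Gr.HasCompleteSubdivision G l := by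
  obtain ⟨B, p, hB, hp, hq⟩ := hs
  rw [← hB, le_mk_iff_exists_subset] at h
  obtain ⟨B', hsub, hB'⟩ := h
  let ι : B' → B := fun x => ⟨x.1, hsub x.2⟩
  have hι : Function.Injective ι := fun x y h =>
    Subtype.ext (congrArg (fun z : B => z.1) h)
  have hends : ∀ a b : B', a ≠ b → ∀ x ∈ (p (ι a) (ι b)).support, x ∈ B → x = a.1 ∨ x = b.1 :=
    fun a b hab => (hp (ι a) (ι b) (fun h => hab (hι h))).2
  refine ⟨B', fun a b => p (ι a) (ι b), hB', ?_, ?_⟩
  · intro a b hab
    exact ⟨(hp (ι a) (ι b) (fun h => hab (hι h))).1, fun x hx hxB => hends a b hab x hx (hsub hxB)⟩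
  · intro a b c d hab hcd hne x hx hx'
    have h1 : x ∈ B := by
      refine hq (ι a) (ι b) (ι c) (ι d) (fun h => hab (hι h)) (fun h => hcd (hι h)) ?_ x hx hx'
      intro h
      apply hne
      rw [Sym2.eq_iff] at h ⊢
      rcases h with ⟨h1, h2⟩ | ⟨h1, h2⟩
      · exact Or.inl ⟨hι h1, hι h2⟩
      · exact Or.inr ⟨hι h1, hι h2⟩
    rcases hends a b hab x hx h1 with h2 | h2
    · rw [h2]
      exact a.2
    · rw [h2]
      exact b.2

/-- laminar classes -/
theorem laminar_transfer : ∀ l : Cardinal.{u}, ℵ₀ ≤ l → ∃ μ : Cardinal.{u}, l ≤ μ ∧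
    ∀ (L : Language.{u, u}) (Q : Set (L.Relations 2)) (K : AEC L), K.LS ≤ l →
      (∀ (M : Type u) [L.Structure M], K.mem M → IsLaminar Q M) →
      ∀ κ : Cardinal.{u}, μ ≤ κ → K.CategoricalIn κ →
        (∀ (M : Type u) [L.Structure M], K.mem M → #M = κ →
          ¬ Gr.HasCompleteSubdivision (restGraph L Q M) κ) →
        ∀ κ' : Cardinal.{u}, μ ≤ κ' → K.CategoricalIn κ' := by
  intro l hl
  obtain ⟨μ, hμ, h⟩ := class_graph_transfer l hl
  refine ⟨μ, hμ.le, fun L Q K hK hL κ hκ hcat hno => h L Q K hK (fun M _ hM => (hL M hM).1) κ hκ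
    hcat fun M _ hM hc => ?_⟩
  refine laminar_no_subdivision (hL M hM) (hl.trans (hμ.le.trans hκ)) ?_ (hno M hM hc)
  exact ((mk_Q_le Q).trans (AEC.isLS_of_LS_le hK).2.1).trans_lt (hμ.trans_le hκ)

/-- the literal conclusion of the eventual categoricity conjecture for laminar classes which exclude
a subdivision of the complete graph on `l` vertices, or over trees -/
theorem laminar_excluded : ∀ l : Cardinal.{u}, ℵ₀ ≤ l → ∃ μ : Cardinal.{u}, l ≤ μ ∧
    ∀ (L : Language.{u, u}) (Q : Set (L.Relations 2)) (K : AEC L), K.LS ≤ l →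
      (∀ (M : Type u) [L.Structure M], K.mem M → IsLaminar Q M) →
      ((∀ (M : Type u) [L.Structure M], K.mem M →
        ¬ Gr.HasCompleteSubdivision (restGraph L Q M) l) ∨
      ∃ R : L.Relations 2, ∀ (M : Type u) [L.Structure M], K.mem M → IsTreeOrder R M ∧
        ∀ x y : M, (restGraph L Q M).Adj x y →
          Structure.RelMap R ![x, y] ∨ Structure.RelMap R ![y, x]) →
      ∀ κ : Cardinal.{u}, μ ≤ κ → K.CategoricalIn κ →
        ∀ κ' : Cardinal.{u}, μ ≤ κ' → K.CategoricalIn κ' := by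
  intro l hl
  obtain ⟨μ, hμ, h⟩ := laminar_transfer l hl
  refine ⟨max μ (max (2 ^ l) (hanf (2 ^ l))), hμ.trans (le_max_left _ _), ?_⟩
  intro L Q K hK hL hor κ hκ hcat κ' hκ'
  have h1 : μ ≤ κ := (le_max_left _ _).trans hκ
  have h2 : 2 ^ l ≤ κ := ((le_max_left _ _).trans (le_max_right _ _)).trans hκ
  have h3 : hanf (2 ^ l) ≤ κ := ((le_max_right _ _).trans (le_max_right _ _)).trans hκ
  refine h L Q K hK hL κ h1 hcat (fun M _ hM _ => ?_) κ' ((le_max_left _ _).trans hκ')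
  rcases hor with hno | ⟨R, hR⟩
  · exact fun hs => hno M hM (subdivision_mono (hμ.trans h1) hs)
  · refine no_subdivision_treeG (hR M hM).2 (hR M hM).1 h3 (hl.trans (hμ.trans h1)) fun C hC => ?_
    exact no_long_chain (AEC.isLS_of_LS_le hK) h2 hcat R hM C hC

/-- the literal conclusion of the eventual categoricity conjecture for laminar classes over
pseudo-forests or trees -/
theorem laminar_literal : ∀ l : Cardinal.{u}, ℵ₀ ≤ l → ∃ μ : Cardinal.{u}, l ≤ μ ∧
    ∀ (L : Language.{u, u}) (Q : Set (L.Relations 2)) (K : AEC L), K.LS ≤ l →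
      (∀ (M : Type u) [L.Structure M], K.mem M → IsLaminar Q M) →
      ((∀ (M : Type u) [L.Structure M], K.mem M →
        ∃ F : M → M, ∀ x y : M, (restGraph L Q M).Adj x y → F x = y ∨ F y = x) ∨
      ∃ R : L.Relations 2, ∀ (M : Type u) [L.Structure M], K.mem M → IsTreeOrder R M ∧
        ∀ x y : M, (restGraph L Q M).Adj x y →
          Structure.RelMap R ![x, y] ∨ Structure.RelMap R ![y, x]) →
      ∀ κ : Cardinal.{u}, μ ≤ κ → K.CategoricalIn κ →
        ∀ κ' : Cardinal.{u}, μ ≤ κ' → K.CategoricalIn κ' := by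
  intro l hl
  obtain ⟨μ, hμ, h⟩ := laminar_transfer l hl
  refine ⟨max μ (max (2 ^ l) (hanf (2 ^ l))), hμ.trans (le_max_left _ _), ?_⟩
  intro L Q K hK hL hor κ hκ hcat κ' hκ'
  have h1 : μ ≤ κ := (le_max_left _ _).trans hκ
  have h2 : 2 ^ l ≤ κ := ((le_max_left _ _).trans (le_max_right _ _)).trans hκ
  have h3 : hanf (2 ^ l) ≤ κ := ((le_max_right _ _).trans (le_max_right _ _)).trans hκ
  refine h L Q K hK hL κ h1 hcat (fun M _ hM _ => ?_) κ' ((le_max_left _ _).trans hκ')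
  rcases hor with hF | ⟨R, hR⟩
  · obtain ⟨F, hF'⟩ := hF M hM
    exact no_subdivision_of_outdegree hF' (hl.trans (hμ.trans h1))
  · refine no_subdivision_treeG (hR M hM).2 (hR M hM).1 h3 (hl.trans (hμ.trans h1)) fun C hC => ?_
    exact no_long_chain (AEC.isLS_of_LS_le hK) h2 hcat R hM C hC

lemma laminar_nest {L : Language.{u, u}} {M : Type u} [L.Structure M] (h : IsNest L M) :
    (∀ x y : M, ¬ (restGraph L univ M).Adj x y) ∧ IsLaminar (univ : Set (L.Relations 2)) M := by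
  obtain ⟨h1, h2, h3, h4⟩ := h
  have h5 : ∀ x y : M, ¬ (restGraph L univ M).Adj x y := by
    rintro x y ⟨hne, h | h⟩
    · obtain ⟨n, R, v, hout, -, ⟨i, hi⟩, ⟨j, hj⟩⟩ := h
      match n, R, v, hout, i, j, hi, hj with
      | 0, _, _, _, i, _, _, _ => exact i.elim0
      | 1, _, v, _, i, j, hi, hj =>
        apply hne
        rw [← hi, ← hj, Fin.fin_one_eq_zero i, Fin.fin_one_eq_zero j]
      | 2, R, _, hout, _, _, _, _ => exact hout R (mem_univ _) rfl
      | n + 3, R, _, _, _, _, _, _ => exact (h2 (n + 3) (by omega)).false R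
    · obtain ⟨n, f, v, hx, hy⟩ := h
      match n, f, v, hx, hy with
      | 0, f, v, hx, hy =>
        apply hne
        have h1 : x = Structure.funMap f v := by
          rcases hx with hx | ⟨i, _⟩
          · exact hx
          · exact i.elim0
        have h2 : y = Structure.funMap f v := by
          rcases hy with hy | ⟨i, _⟩
          · exact hy
          · exact i.elim0
        rw [h1, h2]
      | n + 1, f, _, _, _ => exact (h1 (n + 1) (by omega)).false f
  exact ⟨h5, fun E _ => h3 E, fun E _ E' _ => h4 E E', fun x y hxy => absurd hxy (h5 x y)⟩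

/-- the literal conclusion of the eventual categoricity conjecture for nests of equivalence
relations -/
theorem nested_equivalences : ∀ l : Cardinal.{u}, ℵ₀ ≤ l → ∃ μ : Cardinal.{u}, l ≤ μ ∧
    ∀ (L : Language.{u, u}) (K : AEC L),
      (∀ (M : Type u) [L.Structure M], K.mem M → IsNest L M) → K.LS ≤ l →
      ∀ κ : Cardinal.{u}, μ ≤ κ → K.CategoricalIn κ →
        ∀ κ' : Cardinal.{u}, μ ≤ κ' → K.CategoricalIn κ' := by
  intro l hl
  obtain ⟨μ, hμ, h⟩ := laminar_literal l hl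
  refine ⟨μ, hμ, fun L K hN hK κ hκ hcat => h L univ K hK (fun M _ hM => (laminar_nest (hN M hM)).2)
    (Or.inl fun M _ hM => ⟨id, fun x y hxy => absurd hxy ((laminar_nest (hN M hM)).1 x y)⟩)
    κ hκ hcat⟩

end Vale.Agent.P307.H67
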