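import Vale.Agent.P307.H67.Lam
import Vale.Agent.P307.H67.Copy

universe u

namespace Vale.Agent.P307.H67

open FirstOrder Cardinal Language Set

/-- the symbols in `Q` are equivalence relations on `M` -/
def EqRel {L : Language.{u, u}} (Q : Set (L.Relations 2)) (M : Type u) [L.Structure M] : Prop :=
  ∀ E ∈ Q, Equivalence fun x y : M => Structure.RelMap E ![x, y]

section

variable {L : Language.{u, u}} {Q : Set (L.Relations 2)}

lemma eqRel_of {M : Type u} [L.Structure M]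
    (h : ∀ v : Fin 3 → M, ∃ (N : Type u) (_ : L.Structure N) (w : Fin 3 → N),
      EqRel Q N ∧ Sim L v w) : EqRel Q M := by
  intro E hE
  refine ⟨fun x => ?_, fun {x y} hxy => ?_, fun {x y z} hxy hyz => ?_⟩
  · obtain ⟨N, _, w, h1, h2⟩ := h ![x, x, x]
    exact (h2 E 0 0).2 ((h1 E hE).refl _)
  · obtain ⟨N, _, w, h1, h2⟩ := h ![x, y, y]
    exact (h2 E 1 0).2 ((h1 E hE).symm ((h2 E 0 1).1 hxy))
  · obtain ⟨N, _, w, h1, h2⟩ := h ![x, y, z]
    exact (h2 E 0 2).2 ((h1 E hE).trans ((h2 E 0 1).1 hxy) ((h2 E 1 2).1 hyz))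

lemma eqRel_iso {M N : Type u} [L.Structure M] [L.Structure N] (e : M ≃[L] N)
    (h : EqRel Q M) : EqRel Q N :=
  eqRel_of fun v => ⟨M, inferInstance, fun k => e.symm (v k), h, fun E i j =>
    (map_rel2 e.symm E (v i) (v j)).symm⟩

/-- equivalence relations on one large member are equivalence relations on all large members -/
theorem eqRel_all {K : AEC L} {l κ : Cardinal.{u}} (hK : K.IsLS l) (hlκ : l ≤ κ)
    (hcat : K.CategoricalIn κ) {M₀ : Type u} [L.Structure M₀] (hM₀ : K.mem M₀)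
    (h₀ : hanf (2 ^ l) ≤ #M₀) (hQ : EqRel Q M₀) {M : Type u} [L.Structure M] (hM : K.mem M)
    (hbig : hanf (2 ^ l) ≤ #M) : EqRel Q M := by
  have hne : Nonempty M₀ :=
    mk_ne_zero_iff.1 (aleph0_pos.trans_le ((aleph0_le_hanf _).trans h₀)).ne'
  obtain ⟨N₀, _, hN₀, hc₀, -, hs₀⟩ := exists_copy hK hlκ hM₀ h₀
    (fun _ => Classical.arbitrary M₀)
  have hQN₀ : EqRel Q N₀ := eqRel_of fun v => by
    obtain ⟨w, hw⟩ := hs₀ v
    exact ⟨M₀, inferInstance, w, hQ, hw⟩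
  refine eqRel_of fun v => ?_
  obtain ⟨N, _, hN, hc, ⟨c', hc'⟩, -⟩ := exists_copy hK hlκ hM hbig v
  obtain ⟨e⟩ := hcat.2 N₀ N hN₀ hN hc₀ hc
  exact ⟨N, inferInstance, c', eqRel_iso e hQN₀, fun E i j => (hc' E i j).symm⟩

end

lemma cat_iff' {L : Language.{u, u}} [L.IsRelational] {Q : Set (L.Relations 2)} {K : AEC L}
    {l κ : Cardinal.{u}} (hK : K.IsLS l) (hκ : l < κ)
    (hEq : ∀ (M : Type u) [L.Structure M], K.mem M → #M = κ → EqRel Q M) :
    (imAEC K Q).CategoricalIn κ ↔ K.CategoricalIn κ := by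
  have hQ : #Q ≤ l := (mk_Q_le Q).trans hK.2.1
  constructor
  · rintro ⟨⟨N, _, hN, hc⟩, huniq⟩
    refine ⟨⟨D Q N, inferInstance, hN.2, (card_D_iff hN.1 hK.1 hQ hκ).1 hc⟩, ?_⟩
    intro A B _ _ hA hB hAc hBc
    obtain ⟨e⟩ := huniq (TT Q A) (TT Q B) (memI_TT hA (hEq A hA hAc)) (memI_TT hB (hEq B hB hBc))
      (card_TT (hEq A hA hAc) hK.1 hQ hκ hAc) (card_TT (hEq B hB hBc) hK.1 hQ hκ hBc)
    exact ⟨((dTT (hEq B hB hBc)).symm.comp (dIso e)).comp (dTT (hEq A hA hAc))⟩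
  · rintro ⟨⟨M, _, hM, hc⟩, huniq⟩
    refine ⟨⟨TT Q M, inferInstance, memI_TT hM (hEq M hM hc),
      card_TT (hEq M hM hc) hK.1 hQ hκ hc⟩, ?_⟩
    intro A B _ _ hA hB hAc hBc
    obtain ⟨e⟩ := huniq (D Q A) (D Q B) hA.2 hB.2 ((card_D_iff hA.1 hK.1 hQ hκ).1 hAc)
      ((card_D_iff hB.1 hK.1 hQ hκ).1 hBc)
    exact ⟨lift e hA.1 hB.1⟩

/-- large sparse members imply sparse members in all large cardinalities -/
def SparseUp : Prop := ∀ l : Cardinal.{u}, ℵ₀ ≤ l → ∃ μ : Cardinal.{u}, l ≤ μ ∧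
    ∀ (L : Language.{u, u}) (K : AEC L), K.IsLS l →
      (∃ (M : Type u) (_ : L.Structure M), K.mem M ∧ μ ≤ #M ∧
        ¬ Gr.HasCompleteSubdivision (Gr.gaifman L M) l) →
      ∀ κ : Cardinal.{u}, μ ≤ κ → ∃ (N : Type u) (_ : L.Structure N), K.mem N ∧ #N = κ ∧
        ¬ Gr.HasCompleteSubdivision (Gr.gaifman L N) κ

lemma q1_equiv {L : Language.{u, u}} {Q : Set (L.Relations 2)} {N₀ N : Type u} [L.Structure N₀]
    [(relLang L).Structure N] (e : N₀ ≃[relLang L] N) (h : EqRel Q N₀) : EqRel (Q1 Q) N := by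
  rintro E₁ ⟨E, hE, rfl⟩
  have h0 := h E hE
  have h1 : ∀ x y : N, Structure.RelMap (rS E) ![x, y] ↔
      Structure.RelMap E ![e.symm x, e.symm y] := by
    intro x y
    rw [← map_rel2 e.symm]
    exact Iff.rfl
  exact ⟨fun x => (h1 x x).2 (h0.refl _), fun {x y} h => (h1 y x).2 (h0.symm ((h1 x y).1 h)),
    fun {x y z} h h' => (h1 x z).2 (h0.trans ((h1 x y).1 h) ((h1 y z).1 h'))⟩

/-- one large sparse member suffices -/
theorem one_sparse_member (hsp : SparseUp.{u}) : ∀ l : Cardinal.{u}, ℵ₀ ≤ l →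
    ∃ μ : Cardinal.{u}, l < μ ∧
    ∀ (L : Language.{u, u}) (K : AEC L), K.LS ≤ l →
      (∃ (Q : Set (L.Relations 2)) (M : Type u) (_ : L.Structure M), K.mem M ∧ μ ≤ #M ∧
        (∀ E ∈ Q, Equivalence fun x y : M => Structure.RelMap E ![x, y]) ∧
        ¬ Gr.HasCompleteSubdivision (classGraph L Q M) l) →
      ∀ κ : Cardinal.{u}, μ ≤ κ → K.CategoricalIn κ →
        ∀ κ' : Cardinal.{u}, μ ≤ κ' → K.CategoricalIn κ' := by
  intro l hl
  obtain ⟨μ₀, -, hsp'⟩ := hsp l hl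
  refine ⟨max (max μ₀ (hanf (2 ^ l))) (max (Gr.muG (max l (hanf (2 ^ l)))) (Order.succ l)),
    (Order.lt_succ l).trans_le ((le_max_right _ _).trans (le_max_right _ _)), ?_⟩
  intro L K hK hM κ hκ hcat κ' hκ'
  obtain ⟨Q, M, _, hM, hMbig, hQM, hno⟩ := hM
  have m1 : ∀ {c : Cardinal.{u}}, max (max μ₀ (hanf (2 ^ l)))
      (max (Gr.muG (max l (hanf (2 ^ l)))) (Order.succ l)) ≤ c → μ₀ ≤ c ∧ hanf (2 ^ l) ≤ c ∧
      Gr.muG (max l (hanf (2 ^ l))) ≤ c ∧ l < c := fun {c} h =>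
    ⟨((le_max_left _ _).trans (le_max_left _ _)).trans h,
      ((le_max_right _ _).trans (le_max_left _ _)).trans h,
      ((le_max_left _ _).trans (le_max_right _ _)).trans h,
      (Order.lt_succ l).trans_le (((le_max_right _ _).trans (le_max_right _ _)).trans h)⟩
  obtain ⟨k1, k2, k3, k4⟩ := m1 hκ
  obtain ⟨k1', k2', k3', k4'⟩ := m1 hκ'
  obtain ⟨n1, n2, n3, n4⟩ := m1 hMbig
  have hKl := AEC.isLS_of_LS_le hK
  have hLS := relAEC_isLS hKl
  have hall : ∀ (N : Type u) [L.Structure N], K.mem N → hanf (2 ^ l) ≤ #N → EqRel Q N :=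
    fun N _ hN hNbig => eqRel_all hKl k4.le hcat hM n2 hQM hN hNbig
  have hEq₁ : ∀ c : Cardinal.{u}, hanf (2 ^ l) ≤ c → ∀ (N : Type u) [(relLang L).Structure N],
      (relAEC K).mem N → #N = c → EqRel (Q1 Q) N := by
    intro c hc N _ hN hNc
    obtain ⟨N₀, _, hN₀, ⟨e⟩⟩ := hN
    refine q1_equiv e (hall N₀ hN₀ ?_)
    rw [mk_congr e.toEquiv, hNc]
    exact hc
  rw [← categorical_iff, ← cat_iff' hLS k4' (hEq₁ κ' k2')]
  rw [← categorical_iff, ← cat_iff' hLS k4 (hEq₁ κ k2)] at hcat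
  have hI := imAEC_isLS (Q := Q1 Q) hLS
  have hQM₁ : EqRel (Q1 Q) M := q1_equiv (Language.Equiv.refl _ _) hQM
  obtain ⟨N, _, hN, hNκ, hNno⟩ := hsp' (relLang L) (imAEC (relAEC K) (Q1 Q)) hI
    ⟨TT (Q1 Q) M, inferInstance, memI_TT (memR_self hM) hQM₁,
      n1.trans (mk_le_of_injective (f := (Sum.inl : M → TT (Q1 Q) M)) Sum.inl_injective),
      fun h => hno (subdivision_map (toClass M) (toClass_injective M) h)⟩ κ k1
  refine Gr.categorical_transfer' hI ?_ k3 hcat k3'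
  intro N' _ hN' hc' hsub
  obtain ⟨e⟩ := hcat.2 N' N hN' hN hc' hNκ
  exact hNno (subdivision_iso (gaifmanIso e) hsub)

/-- one large tree-like or sparse laminar member suffices -/
theorem one_member (hsp : SparseUp.{u}) : ∀ l : Cardinal.{u}, ℵ₀ ≤ l →
    ∃ μ : Cardinal.{u}, l ≤ μ ∧
    ∀ (L : Language.{u, u}) (K : AEC L), K.LS ≤ l →
      (∃ (Q : Set (L.Relations 2)) (M : Type u) (_ : L.Structure M), K.mem M ∧ μ ≤ #M ∧
        IsLaminar Q M ∧ (¬ Gr.HasCompleteSubdivision (restGraph L Q M) l ∨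
        ∃ R : L.Relations 2, IsTreeOrder R M ∧ ∀ x y : M, (restGraph L Q M).Adj x y →
          Structure.RelMap R ![x, y] ∨ Structure.RelMap R ![y, x])) →
      ∀ κ : Cardinal.{u}, μ ≤ κ → K.CategoricalIn κ →
        ∀ κ' : Cardinal.{u}, μ ≤ κ' → K.CategoricalIn κ' := by
  intro l hl
  obtain ⟨μ, hμ, h⟩ := one_sparse_member hsp (max (Order.succ l) (hanf (2 ^ l)))
    ((hl.trans (Order.le_succ l)).trans (le_max_left _ _))
  have hlm : l < max (Order.succ l) (hanf (2 ^ l)) := (Order.lt_succ l).trans_le (le_max_left _ _)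
  refine ⟨max μ (2 ^ l), (hlm.le.trans hμ.le).trans (le_max_left _ _), ?_⟩
  intro L K hK hex κ hκ hcat κ' hκ'
  obtain ⟨Q, M, _, hM, hMbig, hLam, hor⟩ := hex
  refine h L K (hK.trans hlm.le) ⟨Q, M, inferInstance, hM, (le_max_left _ _).trans hMbig, hLam.1,
    ?_⟩ κ ((le_max_left _ _).trans hκ) hcat κ' ((le_max_left _ _).trans hκ')
  have hKl := AEC.isLS_of_LS_le hK
  have h0 : ℵ₀ ≤ max (Order.succ l) (hanf (2 ^ l)) :=
    (hl.trans (Order.le_succ l)).trans (le_max_left _ _)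
  refine laminar_no_subdivision hLam h0 (((mk_Q_le Q).trans hKl.2.1).trans_lt hlm) ?_
  rcases hor with hno | ⟨R, hR, hR'⟩
  · exact fun hs => hno (subdivision_mono hlm.le hs)
  · refine no_subdivision_treeG hR' hR (le_max_right _ _) h0 fun C hC => ?_
    exact no_long_chain hKl ((le_max_right _ _).trans hκ) hcat R hM C hC

end Vale.Agent.P307.H67
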