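import Vale.Agent.P307.H67.One

universe u

namespace Vale.Agent.P307.H67

open FirstOrder Cardinal Language Set

/-- the transfer from the class graph of the model in the categoricity cardinal -/
theorem kappa_member : ∀ l : Cardinal.{u}, ℵ₀ ≤ l → ∃ μ : Cardinal.{u}, l < μ ∧
    ∀ (L : Language.{u, u}) (K : AEC L), K.LS ≤ l →
      ∀ κ : Cardinal.{u}, μ ≤ κ → K.CategoricalIn κ →
        (∃ (Q : Set (L.Relations 2)) (M : Type u) (_ : L.Structure M), K.mem M ∧ #M = κ ∧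
          (∀ E ∈ Q, Equivalence fun x y : M => Structure.RelMap E ![x, y]) ∧
          ¬ Gr.HasCompleteSubdivision (classGraph L Q M) κ) →
        ∀ κ' : Cardinal.{u}, μ ≤ κ' → K.CategoricalIn κ' := by
  intro l hl
  refine ⟨max (hanf (2 ^ l)) (max (Gr.muG (max l (hanf (2 ^ l)))) (Order.succ l)),
    (Order.lt_succ l).trans_le ((le_max_right _ _).trans (le_max_right _ _)), ?_⟩
  intro L K hK κ hκ hcat hM κ' hκ'
  obtain ⟨Q, M, _, hM, hMκ, hQM, hno⟩ := hM
  have m1 : ∀ {c : Cardinal.{u}}, max (hanf (2 ^ l))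
      (max (Gr.muG (max l (hanf (2 ^ l)))) (Order.succ l)) ≤ c → hanf (2 ^ l) ≤ c ∧
      Gr.muG (max l (hanf (2 ^ l))) ≤ c ∧ l < c := fun {c} h =>
    ⟨(le_max_left _ _).trans h,
      ((le_max_left _ _).trans (le_max_right _ _)).trans h,
      (Order.lt_succ l).trans_le (((le_max_right _ _).trans (le_max_right _ _)).trans h)⟩
  obtain ⟨k2, k3, k4⟩ := m1 hκ
  obtain ⟨k2', k3', k4'⟩ := m1 hκ'
  have hKl := AEC.isLS_of_LS_le hK
  have hLS := relAEC_isLS hKl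
  have hall : ∀ (N : Type u) [L.Structure N], K.mem N → hanf (2 ^ l) ≤ #N → EqRel Q N :=
    fun N _ hN hNbig => eqRel_all hKl k4.le hcat hM (k2.trans hMκ.ge) hQM hN hNbig
  have hEq₁ : ∀ c : Cardinal.{u}, hanf (2 ^ l) ≤ c → ∀ (N : Type u) [(relLang L).Structure N],
      (relAEC K).mem N → #N = c → EqRel (Q1 Q) N := by
    intro c hc N _ hN hNc
    obtain ⟨N₀, _, hN₀, ⟨e⟩⟩ := hN
    refine q1_equiv e (hall N₀ hN₀ ?_)
    rw [mk_congr e.toEquiv, hNc]
    exact hc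
  rw [← categorical_iff, ← cat_iff' hLS k4' (hEq₁ κ' k2')]
  rw [← categorical_iff, ← cat_iff' hLS k4 (hEq₁ κ k2)] at hcat
  have hI := imAEC_isLS (Q := Q1 Q) hLS
  have hQM₁ : EqRel (Q1 Q) M := q1_equiv (Language.Equiv.refl _ _) hQM
  have hQ : #(Q1 Q) ≤ l := (mk_Q_le (Q1 Q)).trans hLS.2.1
  refine Gr.categorical_transfer' hI ?_ k3 hcat k3'
  intro N' _ hN' hc' hsub
  obtain ⟨e⟩ := hcat.2 N' (TT (Q1 Q) M) hN' (memI_TT (memR_self hM) hQM₁) hc'
    (card_TT hQM₁ hl hQ k4 hMκ)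
  exact hno (subdivision_map (toClass M) (toClass_injective M)
    (subdivision_iso (gaifmanIso e) hsub))

end Vale.Agent.P307.H67
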