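import Vale.Agent.P307.H304.ShallowDefs
import Vale.Agent.P307.Bdl.B1

/-!
A graph without shallow subdivisions of `K_l` has no subdivision of a larger complete graph.
-/

universe u

namespace Vale.Agent.P307.H67

open FirstOrder Cardinal Set Vale.Agent.P307.Gr Vale.Agent.P307.H304

theorem exists_shallow {V : Type u} {G : SimpleGraph V} {l : Cardinal.{u}}
    (h : HasCompleteSubdivision G (arrowFn 2 ℵ₀ l)) : ∃ n, HasShallowSubdivision G n l := by
  classical
  obtain ⟨B, p, hB, hp, hq⟩ := h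
  obtain ⟨g⟩ : Nonempty ((arrowFn 2 ℵ₀ l).ord.ToType ≃ B) :=
    Cardinal.eq.1 (by rw [hB, mk_ord_toType])
  obtain ⟨H, hHl, hhom⟩ := arrowFn_spec 2 ℵ₀ l (ULift.{u} ℕ) (by simp) (arrowFn 2 ℵ₀ l).ord.ToType
    (by rw [mk_ord_toType]) (fun t => ULift.up (p (g (t 0)) (g (t 1))).length)
  obtain ⟨H', hH'H, hH'l⟩ := le_mk_iff_exists_subset.1 hHl
  have hmono : ∀ {i j : (arrowFn 2 ℵ₀ l).ord.ToType}, i < j →
      StrictMono (![i, j] : Fin 2 → (arrowFn 2 ℵ₀ l).ord.ToType) := by
    intro i j hij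
    rw [Fin.strictMono_iff_lt_succ]
    intro k
    have : k = 0 := Subsingleton.elim _ _
    subst this
    exact hij
  have hmem : ∀ (i j : (arrowFn 2 ℵ₀ l).ord.ToType), i ∈ H' → j ∈ H' → ∀ k : Fin 2,
      (![i, j] : Fin 2 → (arrowFn 2 ℵ₀ l).ord.ToType) k ∈ H := by
    intro i j hi hj k
    refine Fin.cases (hH'H hi) (fun k => ?_) k
    exact Fin.cases (hH'H hj) (fun k => k.elim0) k
  have hlt : ∀ i j i' j' : (arrowFn 2 ℵ₀ l).ord.ToType, i ∈ H' → j ∈ H' → i' ∈ H' → j' ∈ H' →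
      i < j → i' < j' → (p (g i) (g j)).length = (p (g i') (g j')).length := by
    intro i j i' j' hi hj hi' hj' hij hij'
    have h1 := hhom ![i, j] ![i', j'] (hmono hij) (hmono hij') (hmem i j hi hj)
      (hmem i' j' hi' hj')
    exact congrArg ULift.down h1
  obtain ⟨n, hn⟩ : ∃ n : ℕ, ∀ i j, i ∈ H' → j ∈ H' → i < j → (p (g i) (g j)).length ≤ n := by
    by_cases hex : ∃ i j, i ∈ H' ∧ j ∈ H' ∧ i < j
    · obtain ⟨i₀, j₀, h1, h2, h3⟩ := hex
      exact ⟨_, fun i j hi hj hij => (hlt i j i₀ j₀ hi hj h1 h2 hij h3).le⟩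
    · exact ⟨0, fun i j hi hj hij => absurd ⟨i, j, hi, hj, hij⟩ hex⟩
  let B' : Set V := (fun i => (g i).1) '' H'
  have hinj : Function.Injective fun i => (g i).1 := fun i i' h => g.injective (Subtype.ext h)
  have hB'B : B' ⊆ B := by
    rintro _ ⟨i, -, rfl⟩
    exact (g i).2
  let j : B' → (arrowFn 2 ℵ₀ l).ord.ToType := fun b => g.symm ⟨b.1, hB'B b.2⟩
  have hjg : ∀ b : B', (g (j b)).1 = b.1 := fun b => by
    simp [j]
  have hjH : ∀ b : B', j b ∈ H' := by
    rintro ⟨b, i, hi, hib⟩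
    have : j ⟨b, i, hi, hib⟩ = i := by
      apply hinj
      rw [show (fun i => (g i).1) (j ⟨b, i, hi, hib⟩) = b from hjg _]
      exact hib.symm
    rw [this]
    exact hi
  have hjinj : Function.Injective j := fun b b' h => Subtype.ext (by rw [← hjg b, ← hjg b', h])
  let q : ∀ a b : B', G.Walk a.1 b.1 := fun a b =>
    if j a < j b then (p (g (j a)) (g (j b))).copy (hjg a) (hjg b)
    else ((p (g (j b)) (g (j a))).copy (hjg b) (hjg a)).reverse
  have hgne : ∀ a b : B', a ≠ b → g (j a) ≠ g (j b) := fun a b h h' => h (hjinj (g.injective h'))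
  have hsupp : ∀ a b : B', a ≠ b → ∀ x ∈ (q a b).support,
      (j a < j b ∧ x ∈ (p (g (j a)) (g (j b))).support) ∨
      (j b < j a ∧ x ∈ (p (g (j b)) (g (j a))).support) := by
    intro a b hab x hx
    by_cases h : j a < j b
    · left
      refine ⟨h, ?_⟩
      simpa [q, if_pos h] using hx
    · right
      refine ⟨lt_of_le_of_ne (not_lt.1 h) fun h' => hab (hjinj h'.symm), ?_⟩
      simpa [q, if_neg h] using hx
  refine ⟨n, B', q, ?_, ?_, ?_⟩
  · rw [mk_image_eq hinj, hH'l]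
  · intro a b hab
    by_cases h : j a < j b
    · obtain ⟨h1, h2⟩ := hp (g (j a)) (g (j b)) (hgne a b hab)
      refine ⟨?_, ?_, ?_⟩
      · simpa [q, if_pos h] using h1
      · simpa [q, if_pos h] using hn _ _ (hjH a) (hjH b) h
      · intro x hx hxB
        have hx' : x ∈ (p (g (j a)) (g (j b))).support := by simpa [q, if_pos h] using hx
        have := h2 x hx' (hB'B hxB)
        rwa [hjg a, hjg b] at this
    · have h' : j b < j a := lt_of_le_of_ne (not_lt.1 h) fun h' => hab (hjinj h'.symm)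
      obtain ⟨h1, h2⟩ := hp (g (j b)) (g (j a)) (hgne b a hab.symm)
      refine ⟨?_, ?_, ?_⟩
      · simpa [q, if_neg h] using h1
      · simpa [q, if_neg h] using hn _ _ (hjH b) (hjH a) h'
      · intro x hx hxB
        have hx' : x ∈ (p (g (j b)) (g (j a))).support := by simpa [q, if_neg h] using hx
        have := h2 x hx' (hB'B hxB)
        rw [hjg a, hjg b] at this
        exact this.symm
  · intro a b c d hab hcd hne x hx hx'
    have key : ∀ a b c d : B', a ≠ b → c ≠ d → s(a, b) ≠ s(c, d) →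
        x ∈ (p (g (j a)) (g (j b))).support → x ∈ (p (g (j c)) (g (j d))).support → x ∈ B' := by
      intro a b c d hab hcd hne h1 h2
      have h3 : s(g (j a), g (j b)) ≠ s(g (j c), g (j d)) := by
        intro h
        apply hne
        rw [Sym2.eq_iff] at h ⊢
        rcases h with ⟨h1, h2⟩ | ⟨h1, h2⟩
        · exact Or.inl ⟨hjinj (g.injective h1), hjinj (g.injective h2)⟩
        · exact Or.inr ⟨hjinj (g.injective h1), hjinj (g.injective h2)⟩
      have h4 := hq _ _ _ _ (hgne a b hab) (hgne c d hcd) h3 x h1 h2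
      rcases (hp _ _ (hgne a b hab)).2 x h1 h4 with h5 | h5
      · rw [h5, hjg]; exact a.2
      · rw [h5, hjg]; exact b.2
    rcases hsupp a b hab x hx with ⟨-, h1⟩ | ⟨-, h1⟩ <;>
      rcases hsupp c d hcd x hx' with ⟨-, h2⟩ | ⟨-, h2⟩
    · exact key a b c d hab hcd hne h1 h2
    · exact key a b d c hab hcd.symm (by rwa [Sym2.eq_swap (a := d)]) h1 h2
    · exact key b a c d hab.symm hcd (by rwa [Sym2.eq_swap (a := b)]) h1 h2
    · exact key b a d c hab.symm hcd.symm
        (by rwa [Sym2.eq_swap (a := b), Sym2.eq_swap (a := d)]) h1 h2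

end Vale.Agent.P307.H67
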