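import Vale.Agent.P307.H67.OneK
import Vale.Agent.P307.H67.Shallow

/-!
The one member theorems for nowhere dense members.
-/

universe u

namespace Vale.Agent.P307.H67

open FirstOrder Cardinal Language Set Vale.Agent.P307.H304

theorem not_complete_of_shallow {V : Type u} {G : SimpleGraph V} {l : Cardinal.{u}}
    (h : ∀ n, ¬ HasShallowSubdivision G n l) :
    ¬ Gr.HasCompleteSubdivision G (max l (arrowFn 2 ℵ₀ l)) := by
  intro hs
  obtain ⟨n, hn⟩ := exists_shallow (subdivision_mono (le_max_right _ _) hs)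
  exact h n hn

/-- one large member with nowhere dense class graph suffices -/
theorem one_shallow_member (hsp : SparseUp.{u}) : ∀ l : Cardinal.{u}, ℵ₀ ≤ l →
    ∃ μ : Cardinal.{u}, l < μ ∧
    ∀ (L : Language.{u, u}) (K : AEC L), K.LS ≤ l →
      (∃ (Q : Set (L.Relations 2)) (M : Type u) (_ : L.Structure M), K.mem M ∧ μ ≤ #M ∧
        (∀ E ∈ Q, Equivalence fun x y : M => Structure.RelMap E ![x, y]) ∧
        ∀ n : ℕ, ¬ HasShallowSubdivision (classGraph L Q M) n l) →
      ∀ κ : Cardinal.{u}, μ ≤ κ → K.CategoricalIn κ →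
        ∀ κ' : Cardinal.{u}, μ ≤ κ' → K.CategoricalIn κ' := by
  intro l hl
  obtain ⟨μ, hμ, h⟩ := one_sparse_member hsp (max l (arrowFn 2 ℵ₀ l)) (hl.trans (le_max_left _ _))
  refine ⟨μ, (le_max_left _ _).trans_lt hμ, fun L K hK hM => ?_⟩
  obtain ⟨Q, M, _, h1, h2, h3, h4⟩ := hM
  exact h L K (hK.trans (le_max_left _ _))
    ⟨Q, M, inferInstance, h1, h2, h3, not_complete_of_shallow h4⟩

/-- one large laminar member over a tree order or a nowhere dense graph suffices -/
theorem one_member_shallow (hsp : SparseUp.{u}) : ∀ l : Cardinal.{u}, ℵ₀ ≤ l →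
    ∃ μ : Cardinal.{u}, l ≤ μ ∧
    ∀ (L : Language.{u, u}) (K : AEC L), K.LS ≤ l →
      (∃ (Q : Set (L.Relations 2)) (M : Type u) (_ : L.Structure M), K.mem M ∧ μ ≤ #M ∧
        IsLaminar Q M ∧ ((∀ n : ℕ, ¬ HasShallowSubdivision (restGraph L Q M) n l) ∨
        ∃ R : L.Relations 2, IsTreeOrder R M ∧ ∀ x y : M, (restGraph L Q M).Adj x y →
          Structure.RelMap R ![x, y] ∨ Structure.RelMap R ![y, x])) →
      ∀ κ : Cardinal.{u}, μ ≤ κ → K.CategoricalIn κ →
        ∀ κ' : Cardinal.{u}, μ ≤ κ' → K.CategoricalIn κ' := by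
  intro l hl
  obtain ⟨μ, hμ, h⟩ := one_member hsp (max l (arrowFn 2 ℵ₀ l)) (hl.trans (le_max_left _ _))
  refine ⟨μ, (le_max_left _ _).trans hμ, fun L K hK hM => ?_⟩
  obtain ⟨Q, M, _, h1, h2, h3, h4⟩ := hM
  exact h L K (hK.trans (le_max_left _ _))
    ⟨Q, M, inferInstance, h1, h2, h3, h4.imp_left not_complete_of_shallow⟩

end Vale.Agent.P307.H67
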