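import Vale.Agent.P307.H67.Defs
import Vale.Agent.P307.Bdl.B1

universe u

namespace Vale.Agent.P307.H67

open FirstOrder Cardinal Language

/-- the function symbols of arity `n - 1`, as symbols of arity `n` -/
def FR (L : Language.{u, u}) : ℕ → Type u
  | 0 => PEmpty
  | (k + 1) => L.Functions k

/-- the relational vocabulary in which functions are replaced by their graphs -/
def relLang (L : Language.{u, u}) : Language.{u, u} :=
  ⟨fun _ => PEmpty, fun n => L.Relations n ⊕ FR L n⟩

instance (L : Language.{u, u}) : (relLang L).IsRelational :=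
  fun _ => (inferInstance : IsEmpty PEmpty)

variable {L : Language.{u, u}}

/-- the symbol of a relation -/
def rS {n : ℕ} (R : L.Relations n) : (relLang L).Relations n := Sum.inl R

/-- the symbol of the graph of a function -/
def fS {n : ℕ} (f : L.Functions n) : (relLang L).Relations (n + 1) :=
  Sum.inr (show FR L (n + 1) from f)

/-- case analysis on symbols -/
lemma rel_cases {C : ∀ n : ℕ, (relLang L).Relations n → Prop}
    (h1 : ∀ n (R : L.Relations n), C n (rS R)) (h2 : ∀ n (f : L.Functions n), C (n + 1) (fS f)) :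
    ∀ n (R : (relLang L).Relations n), C n R := by
  intro n R
  match n, R with
  | n, Sum.inl R => exact h1 n R
  | (k + 1), Sum.inr f => exact h2 k f

/-- the interpretation of the graph symbols -/
def graphRel (M : Type u) [L.Structure M] : ∀ {n : ℕ}, FR L n → (Fin n → M) → Prop
  | 0, f, _ => PEmpty.elim f
  | (k + 1), f, v =>
    Structure.funMap (show L.Functions k from f) (fun i : Fin k => v i.succ) = v 0

instance toRel {M : Type u} [L.Structure M] : (relLang L).Structure M where
  funMap := fun f _ => PEmpty.elim f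
  RelMap := fun {_} R v => Sum.elim (fun R => Structure.RelMap R v) (fun f => graphRel M f v) R

section

variable {M N : Type u} [L.Structure M] [L.Structure N]

lemma relMap_rS {n : ℕ} (R : L.Relations n) (v : Fin n → M) :
    Structure.RelMap (rS R) v ↔ Structure.RelMap R v := Iff.rfl

lemma relMap_fS {n : ℕ} (f : L.Functions n) (v : Fin (n + 1) → M) :
    Structure.RelMap (fS f) v ↔ Structure.funMap f (fun i => v i.succ) = v 0 := Iff.rfl

/-- isomorphisms of the relational structures are isomorphisms -/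
def isoOfRel (e : M ≃[relLang L] N) : M ≃[L] N where
  toEquiv := e.toEquiv
  map_fun' := by
    intro n f x
    have h1 : Structure.RelMap (fS f) (Fin.cons (Structure.funMap f x) x : Fin (n + 1) → M) := by
      rw [relMap_fS]
      simp
    have h2 := (e.map_rel (fS f) _).2 h1
    rw [relMap_fS] at h2
    simp only [Function.comp_apply, Fin.cons_succ, Fin.cons_zero] at h2
    exact h2.symm
  map_rel' := by
    intro n R x
    exact e.map_rel (rS R) x

lemma isoOfRel_apply (e : M ≃[relLang L] N) (x : M) : isoOfRel e x = e x := rfl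

/-- isomorphisms are isomorphisms of the relational structures -/
def relOfIso (e : M ≃[L] N) : M ≃[relLang L] N where
  toEquiv := e.toEquiv
  map_fun' := fun f => PEmpty.elim f
  map_rel' := by
    intro n R x
    revert x
    refine rel_cases (C := fun n R => ∀ x : Fin n → M,
      Structure.RelMap R (e.toEquiv ∘ x) ↔ Structure.RelMap R x) ?_ ?_ n R
    · intro n R x
      exact e.map_rel R x
    · intro n f x
      rw [relMap_fS, relMap_fS]
      have h1 : Structure.funMap f (fun i : Fin n => (e.toEquiv ∘ x) i.succ) =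
          e (Structure.funMap f (fun i => x i.succ)) := (e.map_fun f _).symm
      rw [h1]
      exact e.injective.eq_iff

end

/-- the relational class attached to an abstract elementary class: membership -/
def memR (K : AEC L) (N : Type u) [(relLang L).Structure N] : Prop :=
  ∃ (N₀ : Type u) (_ : L.Structure N₀), K.mem N₀ ∧ Nonempty (N₀ ≃[relLang L] N)

/-- the relational class attached to an abstract elementary class: strong substructures -/
def leR (K : AEC L) {N : Type u} [(relLang L).Structure N] (S : (relLang L).Substructure N) :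
    Prop :=
  ∃ (N₀ : Type u) (_ : L.Structure N₀) (e : N₀ ≃[relLang L] N) (T : L.Substructure N₀),
    K.le T ∧ ∀ x : N₀, x ∈ T ↔ e x ∈ S

section

variable {K : AEC L} {N : Type u} [(relLang L).Structure N]

lemma leR.pres {S : (relLang L).Substructure N} (h : leR K S) {N₁ : Type u} [L.Structure N₁]
    (e₁ : N₁ ≃[relLang L] N) : ∃ T₁ : L.Substructure N₁, K.le T₁ ∧ ∀ x, x ∈ T₁ ↔ e₁ x ∈ S := by
  obtain ⟨N₀, _, e₀, T, hT, hmem⟩ := h
  let g : N₀ ≃[L] N₁ := isoOfRel (e₁.symm.comp e₀)
  have hg : ∀ y, e₁ (g y) = e₀ y := by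
    intro y
    change e₁ (e₁.symm (e₀ y)) = e₀ y
    exact e₁.apply_symm_apply _
  refine ⟨T.map g.toHom, K.le_iso g T hT, fun x => ?_⟩
  rw [Substructure.mem_map]
  constructor
  · rintro ⟨y, hy, rfl⟩
    have := (hmem y).1 hy
    rw [← hg y] at this
    exact this
  · intro hx
    obtain ⟨y, rfl⟩ := g.surjective x
    rw [hg y, ← hmem y] at hx
    exact ⟨y, hx, rfl⟩

lemma relMap_sub {N₀ : Type u} [L.Structure N₀] (T : L.Substructure N₀) :
    ∀ n (R : (relLang L).Relations n) (x : Fin n → T),
      Structure.RelMap R x ↔ Structure.RelMap R (fun i => (x i : N₀)) := by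
  refine rel_cases (C := fun n R => ∀ x : Fin n → T,
      Structure.RelMap R x ↔ Structure.RelMap R (fun i => (x i : N₀))) ?_ ?_
  · intro n R x
    exact Iff.rfl
  · intro n f x
    rw [relMap_fS, relMap_fS, Subtype.ext_iff]
    exact Iff.rfl

/-- a presentation of `N` restricts to presentations of its substructures -/
def subEquiv {N₀ : Type u} [L.Structure N₀] (e : N₀ ≃[relLang L] N) (T : L.Substructure N₀)
    (S : (relLang L).Substructure N) (h : ∀ x, x ∈ T ↔ e x ∈ S) : T ≃[relLang L] S where
  toEquiv := e.toEquiv.subtypeEquiv h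
  map_fun' := fun f => PEmpty.elim f
  map_rel' := by
    intro n R x
    have h1 := e.map_rel R (fun i => (x i : N₀))
    rw [relMap_sub T n R x, ← h1]
    exact Iff.rfl

lemma subEquiv_coe {N₀ : Type u} [L.Structure N₀] (e : N₀ ≃[relLang L] N) (T : L.Substructure N₀)
    (S : (relLang L).Substructure N) (h : ∀ x, x ∈ T ↔ e x ∈ S) (x : T) :
    (subEquiv e T S h x : N) = e (x : N₀) := rfl

lemma leR.mem {S : (relLang L).Substructure N} (h : leR K S) : memR K S ∧ memR K N := by
  obtain ⟨N₀, _, e, T, hT, hmem⟩ := h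
  obtain ⟨h1, h2⟩ := K.mem_of_le T hT
  exact ⟨⟨T, inferInstance, h1, ⟨subEquiv e T S hmem⟩⟩, ⟨N₀, inferInstance, h2, ⟨e⟩⟩⟩

lemma leR.trans (T : (relLang L).Substructure N) (S : (relLang L).Substructure T)
    (hS : leR K S) (hT : leR K T) : leR K (S.map T.subtype.toHom) := by
  obtain ⟨N₀, _, e, T₀, hT₀, hmem⟩ := hT
  obtain ⟨S₁, hS₁, hmem₁⟩ := hS.pres (subEquiv e T₀ T hmem)
  refine ⟨N₀, inferInstance, e, S₁.map T₀.subtype.toHom, K.le_trans T₀ S₁ hS₁ hT₀, fun x => ?_⟩
  rw [Substructure.mem_map, Substructure.mem_map]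
  constructor
  · rintro ⟨y, hy, rfl⟩
    exact ⟨subEquiv e T₀ T hmem y, (hmem₁ y).1 hy, rfl⟩
  · rintro ⟨y, hy, hyx⟩
    have hyx' : (y : N) = e x := hyx
    have hx : x ∈ T₀ := by
      rw [hmem x, ← hyx']
      exact y.2
    refine ⟨⟨x, hx⟩, (hmem₁ ⟨x, hx⟩).2 ?_, rfl⟩
    have : subEquiv e T₀ T hmem ⟨x, hx⟩ = y := Subtype.ext hyx'.symm
    rw [this]
    exact hy

lemma leR.coh (S T : (relLang L).Substructure N) (hST : S ≤ T) (hS : leR K S) (hT : leR K T) :
    leR K (S.comap T.subtype.toHom) := by
  obtain ⟨N₀, _, e, T₀, hT₀, hmem⟩ := hT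
  obtain ⟨S₀, hS₀, hmemS⟩ := hS.pres e
  have hle : S₀ ≤ T₀ := fun x hx => (hmem x).2 (hST ((hmemS x).1 hx))
  refine ⟨T₀, inferInstance, subEquiv e T₀ T hmem, S₀.comap T₀.subtype.toHom,
    K.coherence S₀ T₀ hle hS₀ hT₀, fun x => ?_⟩
  rw [Substructure.mem_comap, Substructure.mem_comap]
  exact hmemS (x : N₀)

end

end Vale.Agent.P307.H67
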