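import Vale.Agent.P307.Bdl.B1

/-!
The threshold of categoricity is bounded by a function of the Löwenheim-Skolem number.
-/

universe u

namespace Vale.Agent.P307.H67

open FirstOrder Cardinal Set Vale.Agent.P307

/-- All classes `K` with `LS(K) ≤ l` which are categorical in all sufficiently large cardinals are
categorical in all cardinals above one cardinal depending only on `l`. -/
theorem exists_threshold (l : Cardinal.{u}) : ∃ μ : Cardinal.{u}, l ≤ μ ∧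
    ∀ (L : Language.{u, u}) (K : AEC L), K.LS ≤ l →
      (∃ χ : Cardinal.{u}, ∀ κ, χ ≤ κ → K.CategoricalIn κ) →
      ∀ κ, μ ≤ κ → K.CategoricalIn κ := by
  obtain ⟨Λ, hΛ⟩ : ∃ Λ : Type u, #Λ = l := ⟨l.out, mk_out l⟩
  have h : ∀ c : CodeTy Λ, ∃ χ : Cardinal.{u},
      (∃ χ' : Cardinal.{u}, ∀ κ, χ' ≤ κ → κ ∈ spec c) → ∀ κ, χ ≤ κ → κ ∈ spec c := by
    intro c
    by_cases hb : ∃ χ : Cardinal.{u}, ∀ κ, χ ≤ κ → κ ∈ spec c
    · obtain ⟨χ, hχ⟩ := hb
      exact ⟨χ, fun _ => hχ⟩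
    · exact ⟨0, fun h => absurd h hb⟩
  choose χ hχ using h
  have hbdd : BddAbove (Set.range χ) := bddAbove_of_small
  refine ⟨max l (⨆ c, χ c), le_max_left _ _, fun L K hK hev κ hκ => ?_⟩
  have hLS : K.IsLS #Λ := AEC.isLS_of_LS_le (hK.trans hΛ.ge)
  obtain ⟨c, hc, -⟩ := exists_code K hLS
  obtain ⟨χ', hχ'⟩ := hev
  exact (hc κ).1 (hχ c ⟨χ', fun κ' h => (hc κ').2 (hχ' κ' h)⟩ κ
    (((le_ciSup hbdd c).trans (le_max_right _ _)).trans hκ))

end Vale.Agent.P307.H67
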