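import Vale.Agent.P307.H67.Defs

universe u

namespace Vale.Agent.P307.H67

open FirstOrder Cardinal

/-- The vocabulary `L` consists of one binary relation symbol `R`, constants, propositional symbols
and unary relation symbols. -/
def TreeVocabulary (L : Language.{u, u}) (R : L.Relations 2) : Prop :=
  (∀ n, 1 ≤ n → IsEmpty (L.Functions n)) ∧
    ∀ n, 2 ≤ n → ∀ S : L.Relations n, (⟨n, S⟩ : Σ k, L.Relations k) = ⟨2, R⟩

/-- In the structure `M` the relation `R` is a tree order: a strict partial order in which the
elements below any given element are linearly ordered. -/
def IsTreeOrder {L : Language.{u, u}} (R : L.Relations 2) (M : Type u) [L.Structure M] : Prop :=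
  (∀ x : M, ¬ Language.Structure.RelMap R ![x, x]) ∧
  (∀ x y z : M, Language.Structure.RelMap R ![x, y] → Language.Structure.RelMap R ![y, z] →
    Language.Structure.RelMap R ![x, z]) ∧
  ∀ x y z : M, Language.Structure.RelMap R ![x, z] → Language.Structure.RelMap R ![y, z] →
    Language.Structure.RelMap R ![x, y] ∨ x = y ∨ Language.Structure.RelMap R ![y, x]

/-- The structure `M` (in an arbitrary vocabulary) is a tree structure: `R` is a tree order and any
two distinct elements which occur together in a tuple of a relation of `M`, or in a tuple `(f v, v)`
for a function `f` of `M`, are comparable in `R`. -/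
def IsTreeStructure {L : Language.{u, u}} (R : L.Relations 2) (M : Type u) [L.Structure M] : Prop :=
  IsTreeOrder R M ∧ ∀ x y : M, (gaifmanF L M).Adj x y →
    Language.Structure.RelMap R ![x, y] ∨ Language.Structure.RelMap R ![y, x]

/-- The Gaifman graph of `M` has an orientation with at most one edge going out of every element;
equivalently, every connected component of it has at most one cycle. -/
def IsPseudoForest (L : Language.{u, u}) (M : Type u) [L.Structure M] : Prop :=
  ∃ F : M → M, ∀ x y : M, (gaifmanF L M).Adj x y → F x = y ∨ F y = x

end Vale.Agent.P307.H67
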